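import Vale.Agent.P218CS.W8

open Filter Topology Set

namespace Vale.Agent.P218CS

/-- Analytic curve selection for the set where an analytic function is negative. -/
theorem curve_selection {E : Type} [NormedAddCommGroup E] [NormedSpace ℝ E]
    [FiniteDimensional ℝ E] {G : E → ℝ} (hG : AnalyticAt ℝ G 0)
    (hf : ∃ᶠ p in 𝓝 (0 : E), G p < 0) :
    ∃ σ : ℝ → E, AnalyticAt ℝ σ 0 ∧ σ 0 = 0 ∧ ∀ᶠ s in 𝓝[>] (0 : ℝ), G (σ s) < 0 := by
  let n := Module.finrank ℝ E
  let e : E ≃L[ℝ] (Fin n → ℝ) := ContinuousLinearEquiv.ofFinrankEq (by simp [n])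
  let T := Fin 0 → ℝ
  let A : Set T := univ
  have hA : Gen A := fun q _ f _ h => h.mono fun t ht => ht (mem_univ t)
  let F : (Fin n → ℝ) × T → ℝ := fun p => G (e.symm p.1)
  have hF : AnalyticAt ℝ F (0, 0) := by
    have h1 : AnalyticAt ℝ (fun p : (Fin n → ℝ) × T => e.symm p.1) (0, 0) :=
      (e.symm.toContinuousLinearMap.analyticAt _).comp analyticAt_fst
    have h2 : AnalyticAt ℝ G (e.symm ((0 : Fin n → ℝ), (0 : T)).1) := by simpa using hG
    exact AnalyticAt.comp (f := fun p : (Fin n → ℝ) × T => e.symm p.1) h2 h1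
  have hcont : ∀ᶠ y in 𝓝 (0 : E), ContinuousAt G y :=
    hG.eventually_analyticAt.mono fun y hy => hy.continuousAt
  have hint : ∀ᶠ y in 𝓝 (0 : E), G y < 0 → y ∈ interior {y | G y < 0} := by
    filter_upwards [hcont] with y hy h
    exact mem_interior_iff_mem_nhds.2 (hy.eventually_lt continuousAt_const h)
  let Ω : Set ((Fin n → ℝ) × T) := {p | e.symm p.1 ∈ interior {y | G y < 0}}
  have hΩ : IsOpen Ω := isOpen_interior.preimage (e.symm.continuous.comp continuous_fst)
  have htend : Tendsto (fun p : (Fin n → ℝ) × T => e.symm p.1) (𝓝 (0, 0)) (𝓝 0) := by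
    have : Continuous (fun p : (Fin n → ℝ) × T => e.symm p.1) :=
      e.symm.continuous.comp continuous_fst
    simpa using this.tendsto ((0 : Fin n → ℝ), (0 : T))
  have hF0 : ¬ ∀ᶠ p in 𝓝 ((0 : Fin n → ℝ), (0 : T)), F p = 0 := by
    intro hcon
    have h1 : ∀ᶠ y in 𝓝 (0 : E), F (e y, 0) = 0 := by
      have : Tendsto (fun y : E => ((e y, (0 : T)) : (Fin n → ℝ) × T)) (𝓝 0) (𝓝 (0, 0)) := by
        have h := (e.continuous.prodMk (continuous_const (y := (0 : T)))).tendsto (0 : E)
        simpa using h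
      exact this.eventually hcon
    obtain ⟨y, hy1, hy2⟩ := (hf.and_eventually h1).exists
    simp only [F, ContinuousLinearEquiv.symm_apply_apply] at hy2
    linarith
  have hfr : ∀ᶠ p in 𝓝 ((0 : Fin n → ℝ), (0 : T)), p ∈ frontier Ω → F p = 0 := by
    filter_upwards [htend.eventually hcont, htend.eventually hint] with p hp1 hp2 hfr
    by_contra hne
    rcases lt_or_gt_of_ne hne with h | h
    · have h1 : p ∈ Ω := hp2 h
      rw [hΩ.frontier_eq] at hfr
      exact hfr.2 h1
    · have h1 : ∀ᶠ y in 𝓝 (e.symm p.1), 0 < G y := continuousAt_const.eventually_lt hp1 h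
      have h2 : ContinuousAt (fun p : (Fin n → ℝ) × T => e.symm p.1) p :=
        (e.symm.continuous.comp continuous_fst).continuousAt
      have h3 : ∀ᶠ q in 𝓝 p, q ∉ Ω := by
        filter_upwards [h2.eventually h1] with q hq hqΩ
        have h5 : e.symm q.1 ∈ {y | G y < 0} := interior_subset hqΩ
        have : G (e.symm q.1) < 0 := h5
        linarith
      have h4 : p ∈ closure Ω := frontier_subset_closure hfr
      exact (mem_closure_iff_frequently.1 h4) h3
  have hcl : ∀ᶠ q in 𝓝 (0 : T), q ∈ A → ((0 : Fin n → ℝ), q) ∈ closure Ω := by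
    refine Eventually.of_forall fun q _ => ?_
    rw [mem_closure_iff_frequently]
    have hq : q = 0 := Subsingleton.elim _ _
    subst hq
    have h1 : Tendsto (fun y : E => ((e y, (0 : T)) : (Fin n → ℝ) × T)) (𝓝 0) (𝓝 (0, 0)) := by
      have h := (e.continuous.prodMk (continuous_const (y := (0 : T)))).tendsto (0 : E)
      simpa using h
    refine h1.frequently ?_
    refine (hf.and_eventually hint).mono fun y hy => ?_
    show e.symm (e y) ∈ interior {y | G y < 0}
    rw [ContinuousLinearEquiv.symm_apply_apply]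
    exact hy.2 hy.1
  obtain ⟨q, _, σ, hσ, hσ0, hσΩ⟩ := hA.wing n (mem_univ (0 : T)) hF hF0 hΩ hfr hcl
    (univ_mem : (univ : Set T) ∈ 𝓝 (0 : T))
  have hline : AnalyticAt ℝ (fun s : ℝ => (s, q)) 0 := analyticAt_id.prod analyticAt_const
  refine ⟨fun s => e.symm (σ (s, q)), ?_, ?_, ?_⟩
  · have h1 : AnalyticAt ℝ (fun s : ℝ => σ (s, q)) 0 :=
      AnalyticAt.comp (f := fun s : ℝ => (s, q)) hσ hline
    exact (e.symm.toContinuousLinearMap.analyticAt _).comp h1
  · show e.symm (σ (0, q)) = 0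
    rw [hσ0.self_of_nhds, map_zero]
  · have h1 : Tendsto (fun s : ℝ => (s, q)) (𝓝[>] 0) (𝓝 (0, q)) :=
      hline.continuousAt.tendsto.mono_left nhdsWithin_le_nhds
    filter_upwards [h1.eventually hσΩ, self_mem_nhdsWithin] with s h2 h3
    have h5 : e.symm (σ (s, q)) ∈ {y | G y < 0} := interior_subset (h2 h3).1
    exact h5

end Vale.Agent.P218CS
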