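import Mathlib

set_option linter.all false

section

open Filter Metric Set Topology Asymptotics

namespace Vale.Agent.P218CS

/-- An analytic function which is flat at a point vanishes near this point. -/
theorem eventually_zero_of_flat {E F : Type*} [NormedAddCommGroup E] [NormedSpace ℝ E]
    [NormedAddCommGroup F] [NormedSpace ℝ F] {g : E → F} (hg : AnalyticAt ℝ g 0)
    (h : ∀ N : ℕ, g =O[𝓝 0] fun y => ‖y‖ ^ N) : ∀ᶠ y in 𝓝 (0 : E), g y = 0 := by
  obtain ⟨p, hp⟩ := hg
  have hz : ∀ n, ∀ y : E, (p n fun _ => y) = 0 := by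
    intro n
    refine Nat.strong_induction_on n fun k hk => ?_
    have psum_eq : p.partialSum (k + 1) = fun y => p k fun _ => y := by
      funext z
      refine Finset.sum_eq_single _ (fun b hb hnb => ?_) fun hn => ?_
      · have := Finset.mem_range_succ_iff.mp hb
        simp only [hk b (this.lt_of_ne hnb)]
      · exact False.elim (hn (Finset.mem_range.mpr (lt_add_one k)))
    have h1 := hp.isBigO_sub_partialSum_pow k.succ
    simp only [psum_eq, zero_add] at h1
    have h2 : (fun y : E => p k fun _ => y) =O[𝓝 0] fun y => ‖y‖ ^ (k + 1) := by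
      have h3 := (h (k + 1)).sub h1
      refine h3.congr_left fun y => ?_
      simp
    exact h2.continuousMultilinearMap_apply_eq_zero
  obtain ⟨r, hr⟩ := hp
  have : ∀ᶠ y in 𝓝 (0 : E), y ∈ eball (0 : E) r := eball_mem_nhds _ hr.r_pos
  filter_upwards [this] with y hy
  have h1 := hr.hasSum hy
  simp only [hz, zero_add] at h1
  exact h1.unique hasSum_zero

end Vale.Agent.P218CS
end

section

/-! Analytically dense sets and orders in the first variable: definitions. -/

open Filter Topology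

namespace Vale.Agent.P218CS

variable {T : Type} [NormedAddCommGroup T] [NormedSpace ℝ T]

/-- `A` is analytically dense at each of its points: an analytic function vanishing on `A` near a
point of `A` vanishes near this point. -/
def Gen (A : Set T) : Prop :=
  ∀ q ∈ A, ∀ f : T → ℝ, AnalyticAt ℝ f q → (∀ᶠ t in 𝓝 q, t ∈ A → f t = 0) →
    ∀ᶠ t in 𝓝 q, f t = 0

/-- Near `(0, q)` the function is zero, or a power of the first variable times a function which is
analytic and not zero at `(0, q)`. -/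
def HasOrd {F : Type} [NormedAddCommGroup F] [NormedSpace ℝ F] (f : ℝ × T → F) (q : T) : Prop :=
  (∀ᶠ p in 𝓝 ((0 : ℝ), q), f p = 0) ∨
    ∃ (k : ℕ) (g : ℝ × T → F), AnalyticAt ℝ g (0, q) ∧ g (0, q) ≠ 0 ∧
      ∀ᶠ p in 𝓝 ((0 : ℝ), q), f p = p.1 ^ k • g p

end Vale.Agent.P218CS
end

section

/-! TASK W1: division by a power of the first variable, orders. -/

open Filter Topology

namespace Vale.Agent.P218CS

/-! ### Division of power series -/

section Quot

variable {E F : Type*} [NormedAddCommGroup E] [NormedSpace ℝ E] [NormedAddCommGroup F]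
  [NormedSpace ℝ F]

/-- The series of the quotient. -/
noncomputable def quotSeries (p : FormalMultilinearSeries ℝ E F) (e : E) (π : E →L[ℝ] E) :
    FormalMultilinearSeries ℝ E F := fun n =>
  ∑ i : Fin (n + 1), ((p (n + 1)).curryMid i e).compContinuousLinearMap
    (fun j : Fin n => if j.castSucc < i then ContinuousLinearMap.id ℝ E else π)

theorem quotSeries_apply (p : FormalMultilinearSeries ℝ E F) (e : E) (π : E →L[ℝ] E) (n : ℕ)
    (v : E) : quotSeries p e π n (fun _ => v) = ∑ i : Fin (n + 1), p (n + 1)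
      (fun j => if j < i then v else if i = j then e else π v) := by
  unfold quotSeries
  rw [sum_apply]
  refine Finset.sum_congr rfl fun i _ => ?_
  rw [ContinuousMultilinearMap.compContinuousLinearMap_apply,
    ContinuousMultilinearMap.curryMid_apply]
  congr 1
  funext j
  refine Fin.succAboveCases i ?_ (fun k => ?_) j
  · rw [Fin.insertNth_apply_same]
    simp
  · rw [Fin.insertNth_apply_succAbove]
    by_cases h : k.castSucc < i
    · rw [if_pos h, if_pos ((Fin.succAbove_lt_iff_castSucc_lt i k).2 h)]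
      rfl
    · rw [if_neg h, if_neg (fun h' => h ((Fin.succAbove_lt_iff_castSucc_lt i k).1 h')),
        if_neg (Fin.ne_succAbove i k)]

theorem quotSeries_sub (p : FormalMultilinearSeries ℝ E F) (e : E) (π : E →L[ℝ] E) (n : ℕ)
    {v : E} {s : ℝ} (h : v - π v = s • e) :
    p (n + 1) (fun _ => v) - p (n + 1) (fun _ => π v) = s • quotSeries p e π n (fun _ => v) := by
  have h1 := (p (n + 1)).toMultilinearMap.map_sub_map_piecewise (fun _ => v) (fun _ => π v)
    Finset.univ
  rw [Finset.piecewise_univ] at h1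
  simp only [Finset.mem_univ, forall_const] at h1
  rw [quotSeries_apply, Finset.smul_sum]
  refine h1.trans (Finset.sum_congr rfl fun i _ => ?_)
  have h2 : (fun j => if j < i then v else if i = j then v - π v else π v) =
      Function.update (fun j => if j < i then v else if i = j then e else π v) i (s • e) := by
    funext j
    by_cases hj : j = i
    · subst hj
      simp [h]
    · rw [Function.update_of_ne hj]
      by_cases h3 : j < i
      · simp [h3]
      · simp [h3, Ne.symm hj]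
  have h3 : Function.update (fun j => if j < i then v else if i = j then e else π v) i e =
      fun j => if j < i then v else if i = j then e else π v := by
    rw [Function.update_eq_self_iff]
    simp
  rw [h2, MultilinearMap.map_update_smul, h3]
  rfl

theorem norm_quotSeries_le (p : FormalMultilinearSeries ℝ E F) (e : E) {π : E →L[ℝ] E}
    (hπ : ‖π‖ ≤ 1) (n : ℕ) : ‖quotSeries p e π n‖ ≤ (n + 1) * (‖p (n + 1)‖ * ‖e‖) := by
  unfold quotSeries
  refine (norm_sum_le _ _).trans ?_
  have : ∀ i ∈ (Finset.univ : Finset (Fin (n + 1))),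
      ‖((p (n + 1)).curryMid i e).compContinuousLinearMap
        (fun j : Fin n => if j.castSucc < i then ContinuousLinearMap.id ℝ E else π)‖ ≤
      ‖p (n + 1)‖ * ‖e‖ := by
    intro i _
    refine (ContinuousMultilinearMap.norm_compContinuousLinearMap_le _ _).trans ?_
    have h1 : ‖(p (n + 1)).curryMid i e‖ ≤ ‖p (n + 1)‖ * ‖e‖ := by
      refine (((p (n + 1)).curryMid i).le_opNorm e).trans ?_
      rw [ContinuousMultilinearMap.norm_curryMid]
    have h2 : ∏ j : Fin n, ‖(if j.castSucc < i then ContinuousLinearMap.id ℝ E else π)‖ ≤ 1 := by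
      refine Finset.prod_le_one (fun _ _ => norm_nonneg _) fun j _ => ?_
      split_ifs
      · exact ContinuousLinearMap.norm_id_le
      · exact hπ
    calc _ ≤ ‖(p (n + 1)).curryMid i e‖ * 1 := by gcongr
      _ ≤ _ := by rw [mul_one]; exact h1
  refine (Finset.sum_le_sum this).trans ?_
  simp

theorem quotSeries_radius_pos (p : FormalMultilinearSeries ℝ E F) (e : E) {π : E →L[ℝ] E}
    (hπ : ‖π‖ ≤ 1) (hp : 0 < p.radius) : 0 < (quotSeries p e π).radius := by
  obtain ⟨r, hr0, hr⟩ := ENNReal.lt_iff_exists_nnreal_btwn.1 hp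
  have hr0' : 0 < r := by exact_mod_cast hr0
  obtain ⟨C, hC, hC'⟩ := p.norm_mul_pow_le_of_lt_radius hr
  have h2 : ((r / 2 : NNReal) : ENNReal) ≤ (quotSeries p e π).radius := by
    refine (quotSeries p e π).le_radius_of_bound (C / r * ‖e‖) fun n => ?_
    have h3 := norm_quotSeries_le p e hπ n
    have h4 := hC' (n + 1)
    have hr1 : (0 : ℝ) < r := by exact_mod_cast hr0'
    have h5 : ((n : ℝ) + 1) ≤ 2 ^ n := by exact_mod_cast Nat.lt_two_pow_self
    rw [NNReal.coe_div, NNReal.coe_ofNat, div_pow]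
    have h6 : ‖p (n + 1)‖ * (r : ℝ) ^ n ≤ C / r := by
      rw [le_div_iff₀ hr1, mul_assoc, ← pow_succ]
      exact h4
    have h7 : (0 : ℝ) < 2 ^ n := by positivity
    calc ‖quotSeries p e π n‖ * ((r : ℝ) ^ n / 2 ^ n)
        ≤ ((n + 1) * (‖p (n + 1)‖ * ‖e‖)) * ((r : ℝ) ^ n / 2 ^ n) := by gcongr
      _ = ((n + 1) / 2 ^ n) * ((‖p (n + 1)‖ * (r : ℝ) ^ n) * ‖e‖) := by ring
      _ ≤ 1 * ((C / r) * ‖e‖) := by
          gcongr
          rw [div_le_one h7]
          exact h5
      _ = _ := one_mul _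
  refine lt_of_lt_of_le ?_ h2
  exact_mod_cast half_pos hr0'

/-- Division of an analytic function vanishing on a hyperplane. -/
theorem exists_quot [CompleteSpace F] {f : E → F} {x : E} (hf : AnalyticAt ℝ f x) (e : E)
    (σ : E →L[ℝ] ℝ) {π : E →L[ℝ] E} (hπ : ∀ v, v - π v = σ v • e) (hπ1 : ‖π‖ ≤ 1)
    (h0 : ∀ᶠ v in 𝓝 (0 : E), f (x + π v) = 0) :
    ∃ g : E → F, AnalyticAt ℝ g x ∧ ∀ᶠ v in 𝓝 (0 : E), f (x + v) = σ v • g (x + v) := by
  obtain ⟨p, r, hr⟩ := hf
  have hp : 0 < p.radius := lt_of_lt_of_le hr.r_pos hr.r_le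
  have hq := quotSeries_radius_pos p e hπ1 hp
  have hqs := (quotSeries p e π).hasFPowerSeriesOnBall hq
  refine ⟨fun y => (quotSeries p e π).sum (y - x), ?_, ?_⟩
  · have h1 : AnalyticAt ℝ (quotSeries p e π).sum (x - x) := by
      rw [sub_self]
      exact hqs.analyticAt
    exact AnalyticAt.comp (f := fun y => y - x) h1 (analyticAt_id.sub analyticAt_const)
  · have e1 : ∀ᶠ v in 𝓝 (0 : E), v ∈ Metric.eball (0 : E) r := Metric.eball_mem_nhds _ hr.r_pos
    have e2 : ∀ᶠ v in 𝓝 (0 : E), v ∈ Metric.eball (0 : E) (quotSeries p e π).radius :=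
      Metric.eball_mem_nhds _ hq
    have e3 : ∀ᶠ v in 𝓝 (0 : E), π v ∈ Metric.eball (0 : E) r := by
      have : Tendsto π (𝓝 0) (𝓝 0) := by
        have := π.continuous.tendsto 0
        rwa [map_zero] at this
      exact this.eventually e1
    filter_upwards [e1, e2, e3, h0] with v h1 h2 h3 h4
    have s1 := hr.hasSum h1
    have s2 := hr.hasSum h3
    rw [h4] at s2
    have s3 := s1.sub s2
    rw [sub_zero, ← hasSum_nat_add_iff' 1] at s3
    have s4 := hqs.hasSum h2
    rw [zero_add] at s4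
    have s5 := s4.const_smul (σ v)
    have h5 : ∑ i ∈ Finset.range 1, (p i (fun _ => v) - p i (fun _ => π v)) = 0 := by
      rw [Finset.sum_range_one]
      have : (fun _ : Fin 0 => v) = fun _ : Fin 0 => π v := Subsingleton.elim _ _
      rw [this, sub_self]
    rw [h5, sub_zero] at s3
    have h6 : (fun n => p (n + 1) (fun _ => v) - p (n + 1) (fun _ => π v)) =
        fun n => σ v • quotSeries p e π n (fun _ => v) := by
      funext n
      exact quotSeries_sub p e π n (hπ v)
    rw [h6] at s3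
    simp only [add_sub_cancel_left]
    exact s3.unique s5

end Quot

variable {T : Type} [NormedAddCommGroup T] [NormedSpace ℝ T]
  {F : Type} [NormedAddCommGroup F] [NormedSpace ℝ F]

theorem exists_div_one [CompleteSpace F] {q : T} {f : ℝ × T → F} (hf : AnalyticAt ℝ f (0, q))
    (h0 : ∀ᶠ t in 𝓝 q, f (0, t) = 0) :
    ∃ g : ℝ × T → F, AnalyticAt ℝ g (0, q) ∧ ∀ᶠ p in 𝓝 ((0 : ℝ), q), f p = p.1 • g p := by
  let π : ℝ × T →L[ℝ] ℝ × T := (ContinuousLinearMap.inr ℝ ℝ T).comp (ContinuousLinearMap.snd ℝ ℝ T)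
  have hπ1 : ‖π‖ ≤ 1 := by
    refine π.opNorm_le_bound zero_le_one fun v => ?_
    rw [one_mul]
    have : π v = (0, v.2) := rfl
    rw [this, Prod.norm_mk, norm_zero, max_eq_right (norm_nonneg _)]
    exact norm_snd_le v
  have hπ : ∀ v : ℝ × T, v - π v = ContinuousLinearMap.fst ℝ ℝ T v • ((1 : ℝ), (0 : T)) := by
    intro v
    have : π v = (0, v.2) := rfl
    rw [this]
    ext <;> simp
  obtain ⟨g, hg, hg'⟩ := exists_quot hf ((1 : ℝ), (0 : T)) (ContinuousLinearMap.fst ℝ ℝ T)
    (π := π) hπ hπ1 (by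
      have h1 : Tendsto (fun v : ℝ × T => q + v.2) (𝓝 0) (𝓝 q) := by
        have : Continuous fun v : ℝ × T => q + v.2 := by fun_prop
        have h2 := this.tendsto 0
        simpa using h2
      filter_upwards [h1.eventually h0] with v hv
      have : ((0 : ℝ), q) + π v = (0, q + v.2) := by
        have : π v = (0, v.2) := rfl
        rw [this, Prod.mk_add_mk, add_zero]
      rw [this]
      exact hv)
  refine ⟨g, hg, ?_⟩
  have h1 : Tendsto (fun p : ℝ × T => p - ((0 : ℝ), q)) (𝓝 (0, q)) (𝓝 0) := by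
    have : Continuous fun p : ℝ × T => p - ((0 : ℝ), q) := by fun_prop
    have h2 := this.tendsto (0, q)
    rwa [sub_self] at h2
  filter_upwards [h1.eventually hg'] with p hp
  rw [add_sub_cancel] at hp
  rw [hp]
  simp

section Main

variable [FiniteDimensional ℝ T] [FiniteDimensional ℝ F]

omit [NormedSpace ℝ T] [FiniteDimensional ℝ T] in
theorem tendsto_zero_mk (q : T) : Tendsto (fun t : T => ((0 : ℝ), t)) (𝓝 q) (𝓝 (0, q)) :=
  (Continuous.prodMk_right (0 : ℝ)).tendsto q

theorem HasOrd.eventually {f : ℝ × T → F} {q : T} (h : HasOrd f q) :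
    ∀ᶠ q' in 𝓝 q, HasOrd f q' := by
  rcases h with h | ⟨k, g, hg, hg0, hfg⟩
  · filter_upwards [(tendsto_zero_mk q).eventually (eventually_eventually_nhds.2 h)] with q' hq'
    exact Or.inl hq'
  · have h1 : ∀ᶠ q' in 𝓝 q, g (0, q') ≠ 0 :=
      (tendsto_zero_mk q).eventually (hg.continuousAt.eventually_ne hg0)
    filter_upwards [(tendsto_zero_mk q).eventually (eventually_eventually_nhds.2 hfg), h1,
      (tendsto_zero_mk q).eventually hg.eventually_analyticAt] with q' h2 h3 h4
    exact Or.inr ⟨k, g, h4, h3, h2⟩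

omit [FiniteDimensional ℝ T] in
/-- an analytic function which is not locally zero is a power of the first variable times a
function whose restriction to the hyperplane is not locally zero -/
theorem exists_pow_smul {q : T} {f : ℝ × T → F} (hf : AnalyticAt ℝ f (0, q))
    (h : ¬ ∀ᶠ p in 𝓝 ((0 : ℝ), q), f p = 0) :
    ∃ (k : ℕ) (g : ℝ × T → F), AnalyticAt ℝ g (0, q) ∧
      (∀ᶠ p in 𝓝 ((0 : ℝ), q), f p = p.1 ^ k • g p) ∧ ¬ ∀ᶠ t in 𝓝 q, g (0, t) = 0 := by
  have : CompleteSpace F := FiniteDimensional.complete ℝ F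
  by_contra hcon
  push Not at hcon
  have h1 : ∀ k : ℕ, ∃ g : ℝ × T → F, AnalyticAt ℝ g (0, q) ∧
      ∀ᶠ p in 𝓝 ((0 : ℝ), q), f p = p.1 ^ k • g p := by
    intro k
    induction k with
    | zero => exact ⟨f, hf, Eventually.of_forall fun p => by simp⟩
    | succ k ih =>
      obtain ⟨g, hg, hfg⟩ := ih
      obtain ⟨g2, hg2, hg2'⟩ := exists_div_one hg (hcon k g hg hfg)
      refine ⟨g2, hg2, ?_⟩
      filter_upwards [hfg, hg2'] with p h1 h2
      rw [h1, h2, smul_smul, pow_succ]
  refine h ?_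
  have h2 : AnalyticAt ℝ (fun y => f (((0 : ℝ), q) + y)) 0 := by
    have h3 : AnalyticAt ℝ f (((0 : ℝ), q) + 0) := by rwa [add_zero]
    exact h3.comp (analyticAt_const.add analyticAt_id)
  have hadd : Tendsto (fun y : ℝ × T => ((0 : ℝ), q) + y) (𝓝 0) (𝓝 (0, q)) := by
    have : Continuous fun y : ℝ × T => ((0 : ℝ), q) + y := by fun_prop
    have h3 := this.tendsto 0
    rwa [add_zero] at h3
  have h3 := eventually_zero_of_flat h2 (fun N => by
    obtain ⟨g, hg, hfg⟩ := h1 N
    have h4 : (fun y => g (((0 : ℝ), q) + y)) =O[𝓝 0] fun _ => (1 : ℝ) := by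
      have h5 : Tendsto (fun y => g (((0 : ℝ), q) + y)) (𝓝 0) (𝓝 (g (0, q))) :=
        hg.continuousAt.tendsto.comp hadd
      exact h5.isBigO_one ℝ
    obtain ⟨c, hc⟩ := h4.bound
    refine Asymptotics.IsBigO.of_bound c ?_
    filter_upwards [hc, hadd.eventually hfg] with y h5 h6
    rw [h6, norm_smul, norm_pow, Real.norm_eq_abs]
    simp only [zero_add, Prod.fst_add, norm_one, mul_one] at h5 ⊢
    rw [norm_pow, norm_norm]
    have h7 : |y.1| ≤ ‖y‖ := norm_fst_le y
    calc |y.1| ^ N * ‖g (((0 : ℝ), q) + y)‖ ≤ ‖y‖ ^ N * c := by gcongr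
      _ = _ := mul_comm _ _)
  have hsub : Tendsto (fun p : ℝ × T => p - ((0 : ℝ), q)) (𝓝 (0, q)) (𝓝 0) := by
    have : Continuous fun p : ℝ × T => p - ((0 : ℝ), q) := by fun_prop
    have h2 := this.tendsto (0, q)
    rwa [sub_self] at h2
  filter_upwards [hsub.eventually h3] with p hp
  rwa [add_sub_cancel] at hp

omit [FiniteDimensional ℝ T] in
/-- density of `A` for vector valued functions -/
theorem Gen.frequently_ne {A : Set T} (hA : Gen A) {q : T} (hq : q ∈ A) {g : T → F}
    (hg : AnalyticAt ℝ g q) (h : ¬ ∀ᶠ t in 𝓝 q, g t = 0) : ∃ᶠ t in 𝓝 q, t ∈ A ∧ g t ≠ 0 := by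
  intro hcon
  refine h ?_
  let b := Module.finBasis ℝ F
  have h1 : ∀ i, ∀ᶠ t in 𝓝 q, b.coord i (g t) = 0 := by
    intro i
    have h2 : AnalyticAt ℝ (fun t => LinearMap.toContinuousLinearMap (b.coord i) (g t)) q :=
      (ContinuousLinearMap.analyticAt _ _).comp hg
    refine hA q hq _ h2 ?_
    filter_upwards [hcon] with t ht htA
    by_contra h3
    refine ht ⟨htA, fun h4 => h3 ?_⟩
    rw [h4, map_zero]
  filter_upwards [eventually_all.2 h1] with t ht
  exact b.ext_elem fun i => by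
    have := ht i
    simpa using this

theorem Gen.exists_hasOrd_one {A : Set T} (hA : Gen A) {q : T} (hq : q ∈ A)
    {f : ℝ × T → F} (hf : AnalyticAt ℝ f (0, q)) {O : Set T} (hO : O ∈ 𝓝 q) :
    ∃ q' ∈ A ∩ O, HasOrd f q' := by
  by_cases h : ∀ᶠ p in 𝓝 ((0 : ℝ), q), f p = 0
  · exact ⟨q, ⟨hq, mem_of_mem_nhds hO⟩, Or.inl h⟩
  · obtain ⟨k, g, hg, hfg, hg0⟩ := exists_pow_smul hf h
    have h1 : AnalyticAt ℝ (fun t => g (0, t)) q :=
      AnalyticAt.comp (f := fun t : T => ((0 : ℝ), t)) hg (analyticAt_const.prod analyticAt_id)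
    have h2 := hA.frequently_ne hq h1 hg0
    have h3 : ∀ᶠ t in 𝓝 q, t ∈ O ∧ AnalyticAt ℝ g (0, t) ∧
        ∀ᶠ p in 𝓝 ((0 : ℝ), t), f p = p.1 ^ k • g p := by
      filter_upwards [hO, (tendsto_zero_mk q).eventually hg.eventually_analyticAt,
        (tendsto_zero_mk q).eventually (eventually_eventually_nhds.2 hfg)] with t h4 h5 h6
      exact ⟨h4, h5, h6⟩
    obtain ⟨t, ⟨htA, ht0⟩, htO, ht1, ht2⟩ := (h2.and_eventually h3).exists
    exact ⟨t, ⟨htA, htO⟩, Or.inr ⟨k, g, ht1, ht0, ht2⟩⟩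

/-- Existence of points of `A` at which finitely many analytic functions have orders. -/
theorem Gen.exists_hasOrd {A : Set T} (hA : Gen A) {q : T} (hq : q ∈ A) {ι : Type} [Finite ι]
    {f : ι → ℝ × T → F} (hf : ∀ i, AnalyticAt ℝ (f i) (0, q)) {O : Set T} (hO : O ∈ 𝓝 q) :
    ∃ q' ∈ A ∩ O, ∀ i, HasOrd (f i) q' ∧ AnalyticAt ℝ (f i) (0, q') := by
  classical
  have := Fintype.ofFinite ι
  have key : ∀ S : Finset ι, ∀ q ∈ A, (∀ i, AnalyticAt ℝ (f i) (0, q)) → ∀ O ∈ 𝓝 q,
      ∃ q' ∈ A ∩ O, (∀ i, AnalyticAt ℝ (f i) (0, q')) ∧ ∀ i ∈ S, HasOrd (f i) q' := by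
    intro S
    induction S using Finset.induction_on with
    | empty => exact fun q hq hf O hO => ⟨q, ⟨hq, mem_of_mem_nhds hO⟩, hf, by simp⟩
    | insert i S hi ih =>
      intro q hq hf O hO
      obtain ⟨U, hUO, hUo, hqU⟩ := mem_nhds_iff.1 hO
      obtain ⟨q1, ⟨hq1A, hq1U⟩, hq1, hq1S⟩ := ih q hq hf U (hUo.mem_nhds hqU)
      have h1 : ∀ᶠ t in 𝓝 q1, t ∈ U ∧ (∀ j, AnalyticAt ℝ (f j) (0, t)) ∧
          ∀ j ∈ S, HasOrd (f j) t := by
        filter_upwards [hUo.mem_nhds hq1U,
          eventually_all.2 fun j => (tendsto_zero_mk q1).eventually (hq1 j).eventually_analyticAt,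
          (Finset.eventually_all S).2 fun j hj => (hq1S j hj).eventually] with t h2 h3 h4
        exact ⟨h2, h3, h4⟩
      obtain ⟨q2, ⟨hq2A, hq2U, hq2, hq2S⟩, hq2i⟩ := hA.exists_hasOrd_one hq1A (hq1 i) h1
      refine ⟨q2, ⟨hq2A, hUO hq2U⟩, hq2, fun j hj => ?_⟩
      rcases Finset.mem_insert.1 hj with rfl | hj
      · exact hq2i
      · exact hq2S j hj
  obtain ⟨q', hq', h1, h2⟩ := key Finset.univ q hq hf O hO
  exact ⟨q', hq', fun i => ⟨h2 i (Finset.mem_univ _), h1 i⟩⟩

end Main

end Vale.Agent.P218CS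
end

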