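import Mathlib
import Vale.Agent.P218CS.W1
import Vale.Agent.P218CS.W2

set_option linter.all false

section

/-! TASK W3. -/

open Filter Topology Polynomial

namespace Vale.Agent.P218CS

namespace Puiseux

/-! ### Algebra -/

/-- A monic polynomial of degree `d`, without term of degree `d - 1`, other than `X ^ d`, is the
product of two coprime factors of smaller degree. -/
theorem exists_factor {d : ℕ} (hd : 0 < d) {Q : ℂ[X]} (hm : Q.Monic) (hdeg : Q.natDegree = d)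
    (h0 : Q.coeff (d - 1) = 0) (hne : Q ≠ X ^ d) :
    ∃ (Q1 Q2 : ℂ[X]), Q1.Monic ∧ Q2.Monic ∧ Q1.natDegree < d ∧ Q2.natDegree < d ∧
      Q1.natDegree + Q2.natDegree = d ∧ IsCoprime Q1 Q2 ∧ Q = Q1 * Q2 := by
  have hQ0 : Q ≠ 0 := hm.ne_zero
  have hdg : Q.degree ≠ 0 := by
    rw [Polynomial.degree_eq_natDegree hQ0, hdeg]
    exact_mod_cast hd.ne'
  obtain ⟨α, hα⟩ := IsAlgClosed.exists_root Q hdg
  obtain ⟨q, hq, hnd⟩ := exists_eq_pow_rootMultiplicity_mul_and_not_dvd Q hQ0 α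
  set m := rootMultiplicity α Q with hmdef
  have hmpos : 0 < m := (rootMultiplicity_pos hQ0).2 hα
  have hpm : ((X - C α) ^ m).Monic := (monic_X_sub_C α).pow m
  have hqm : q.Monic := hpm.of_mul_monic_left (hq ▸ hm)
  have hdeg2 : ((X - C α) ^ m).natDegree = m := by
    rw [(monic_X_sub_C α).natDegree_pow, natDegree_X_sub_C, mul_one]
  have hsum : m + q.natDegree = d := by
    have h1 := hpm.natDegree_mul hqm
    rw [← hq, hdeg, hdeg2] at h1
    exact h1.symm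
  have hlt : m < d := by
    rcases (show m ≤ d by omega).lt_or_eq with h | h
    · exact h
    exfalso
    have hq0 : q.natDegree = 0 := by omega
    have hq1 : q = 1 := (hqm.natDegree_eq_zero).1 hq0
    rw [hq1, mul_one, h] at hq
    rw [hq, sub_eq_add_neg, ← C_neg, coeff_X_add_C_pow] at h0
    have h1 : d - (d - 1) = 1 := by omega
    have h2 : d.choose (d - 1) = d := by
      rw [Nat.choose_symm_of_eq_add (show d = d - 1 + 1 by omega), Nat.choose_one_right]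
    rw [h1, h2, pow_one] at h0
    have h3 : α = 0 := by
      rcases mul_eq_zero.1 h0 with h | h
      · exact neg_eq_zero.1 h
      · exact absurd h (by exact_mod_cast hd.ne')
    apply hne
    rw [hq, h3, map_zero, sub_zero]
  refine ⟨(X - C α) ^ m, q, hpm, hqm, by rw [hdeg2]; exact hlt, by omega, by rw [hdeg2]; exact hsum,
    ?_, hq⟩
  exact IsCoprime.pow_left (((irreducible_X_sub_C α).coprime_iff_not_dvd).2 hnd)

theorem scaleRoots_prod {κ : Type} (s : Finset κ) (β : κ → ℂ) (r : ℂ) :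
    scaleRoots (∏ i ∈ s, (X - C (β i))) r = ∏ i ∈ s, (X - C (r * β i)) := by
  classical
  induction s using Finset.induction_on with
  | empty => simp
  | insert a s ha ih =>
    rw [Finset.prod_insert ha, Finset.prod_insert ha, mul_scaleRoots_of_noZeroDivisors, ih,
      X_sub_C_scaleRoots, mul_comm r]

variable {T : Type} [NormedAddCommGroup T] [NormedSpace ℝ T]

/-! ### Filters -/

omit [NormedSpace ℝ T] in
theorem ev {q : T} {φ : ℝ × T → Prop} (h : ∀ᶠ p in 𝓝 ((0 : ℝ), q), φ p) :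
    ∀ᶠ q' in 𝓝 q, ∀ᶠ p in 𝓝 ((0 : ℝ), q'), φ p := by
  have h1 := h.eventually_nhds
  have h2 : Tendsto (fun q' : T => ((0 : ℝ), q')) (𝓝 q) (𝓝 ((0 : ℝ), q)) :=
    (Continuous.prodMk_right (0 : ℝ)).tendsto q
  exact h2.eventually h1

theorem evA {F : Type} [NormedAddCommGroup F] [NormedSpace ℝ F] [CompleteSpace F] {q : T} {f : ℝ × T → F}
    (h : AnalyticAt ℝ f (0, q)) : ∀ᶠ q' in 𝓝 q, AnalyticAt ℝ f (0, q') := by
  have h2 : Tendsto (fun q' : T => ((0 : ℝ), q')) (𝓝 q) (𝓝 ((0 : ℝ), q)) :=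
    (Continuous.prodMk_right (0 : ℝ)).tendsto q
  exact h2.eventually h.eventually_analyticAt

/-- power substitution -/
def pm (N : ℕ) (p : ℝ × T) : ℝ × T := (p.1 ^ N, p.2)

omit [NormedAddCommGroup T] [NormedSpace ℝ T] in
theorem pm_pm (N M : ℕ) (p : ℝ × T) : pm N (pm M p) = pm (N * M) p := by
  simp only [pm, ← pow_mul, mul_comm]

omit [NormedAddCommGroup T] [NormedSpace ℝ T] in
theorem pm_zero {N : ℕ} (hN : 0 < N) (q : T) : pm N ((0 : ℝ), q) = (0, q) := by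
  simp only [pm, zero_pow hN.ne']

theorem analyticAt_pm (N : ℕ) (p : ℝ × T) : AnalyticAt ℝ (pm N) p := by
  unfold pm
  exact (analyticAt_fst.pow N).prod analyticAt_snd

theorem tendsto_pm {N : ℕ} (hN : 0 < N) (q : T) :
    Tendsto (pm N) (𝓝 ((0 : ℝ), q)) (𝓝 (0, q)) := by
  have h := (analyticAt_pm N ((0 : ℝ), q)).continuousAt
  rw [ContinuousAt, pm_zero hN] at h
  exact h

theorem analyticAt_comp_pm {F : Type} [NormedAddCommGroup F] [NormedSpace ℝ F] {q : T}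
    {f : ℝ × T → F} (h : AnalyticAt ℝ f (0, q)) {N : ℕ} (hN : 0 < N) :
    AnalyticAt ℝ (fun p => f (pm N p)) (0, q) :=
  AnalyticAt.comp (g := f) (f := pm N) (by rw [pm_zero hN]; exact h) (analyticAt_pm N _)

/-- `P (s ^ N, t)` is a product of linear factors near `(0, q)` -/
def SplitN (P : ℝ × T → ℂ[X]) (N : ℕ) (q : T) : Prop :=
  ∃ (κ : Type) (_ : Fintype κ) (β : κ → ℝ × T → ℂ), (∀ i, AnalyticAt ℝ (β i) (0, q)) ∧
    ∀ᶠ p in 𝓝 ((0 : ℝ), q), P (pm N p) = ∏ i, (X - C (β i p))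

theorem SplitN.ev {P : ℝ × T → ℂ[X]} {N : ℕ} {q : T} (h : SplitN P N q) :
    ∀ᶠ q' in 𝓝 q, SplitN P N q' := by
  obtain ⟨κ, _, β, h1, h2⟩ := h
  have h3 : ∀ᶠ q' in 𝓝 q, ∀ i, AnalyticAt ℝ (β i) (0, q') :=
    (Filter.eventually_all).2 fun i => evA (h1 i)
  filter_upwards [h3, Puiseux.ev h2] with q' h4 h5
  exact ⟨κ, inferInstance, β, h4, h5⟩

/-- products -/
theorem SplitN.mul {P R1 R2 : ℝ × T → ℂ[X]} {N1 N2 : ℕ} (hN1 : 0 < N1) (hN2 : 0 < N2) {q : T}
    (h : ∀ᶠ p in 𝓝 ((0 : ℝ), q), P p = R1 p * R2 p) (h1 : SplitN R1 N1 q)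
    (h2 : SplitN (fun p => R2 (pm N1 p)) N2 q) : SplitN P (N1 * N2) q := by
  obtain ⟨κ1, _, β1, h3, h4⟩ := h1
  obtain ⟨κ2, _, β2, h5, h6⟩ := h2
  refine ⟨κ1 ⊕ κ2, inferInstance, Sum.elim (fun i p => β1 i (pm N2 p)) β2, ?_, ?_⟩
  · rintro (i | i)
    · exact analyticAt_comp_pm (h3 i) hN2
    · exact h5 i
  · filter_upwards [(tendsto_pm (Nat.mul_pos hN1 hN2) q).eventually h,
      (tendsto_pm hN2 q).eventually h4, h6] with p h7 h8 h9
    rw [h7, Fintype.prod_sum_type]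
    simp only [Sum.elim_inl, Sum.elim_inr]
    rw [← h8, ← h9]
    simp only [pm_pm]

/-- scaling of the roots -/
theorem SplitN.scale {P Q : ℝ × T → ℂ[X]} {M N R : ℕ} (hN : 0 < N) {q : T}
    (h : ∀ᶠ p in 𝓝 ((0 : ℝ), q), P (pm M p) = scaleRoots (Q p) ((p.1 : ℂ) ^ R))
    (h1 : SplitN Q N q) : SplitN P (M * N) q := by
  obtain ⟨κ, _, β, h3, h4⟩ := h1
  refine ⟨κ, inferInstance, fun i p => (((pm N p).1 : ℂ) ^ R) * β i p, fun i => ?_, ?_⟩
  · refine AnalyticAt.mul ?_ (h3 i)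
    have h5 : AnalyticAt ℝ (fun p : ℝ × T => ((pm N p).1 : ℂ)) (0, q) := by
      have h6 : AnalyticAt ℝ (fun p : ℝ × T => (pm N p).1) (0, q) :=
        analyticAt_fst.comp (analyticAt_pm N _)
      exact (Complex.ofRealCLM.analyticAt _).comp h6
    exact h5.pow R
  · filter_upwards [(tendsto_pm hN q).eventually h, h4] with p h7 h8
    rw [← pm_pm, h7, h8, scaleRoots_prod]

/-- translation of the roots -/
theorem SplitN.shift {P : ℝ × T → ℂ[X]} {c : ℝ × T → ℂ} {N : ℕ} (hN : 0 < N) {q : T}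
    (hc : AnalyticAt ℝ c (0, q)) (h1 : SplitN (fun p => (P p).comp (X - C (c p))) N q) :
    SplitN P N q := by
  obtain ⟨κ, _, β, h3, h4⟩ := h1
  refine ⟨κ, inferInstance, fun i p => β i p - c (pm N p), fun i => ?_, ?_⟩
  · exact (h3 i).sub (analyticAt_comp_pm hc hN)
  · filter_upwards [h4] with p h5
    have h6 : P (pm N p) = ((P (pm N p)).comp (X - C (c (pm N p)))).comp
        (X + C (c (pm N p))) := by
      rw [comp_assoc, sub_comp, X_comp, C_comp, add_sub_cancel_right, comp_X]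
    rw [h6, h5, prod_comp]
    refine Finset.prod_congr rfl fun i _ => ?_
    rw [sub_comp, X_comp, C_comp, C_sub]
    ring

/-! ### The Tschirnhaus transformation -/

theorem comp_monic {P : ℂ[X]} {d : ℕ} (hm : P.Monic ∧ P.natDegree = d) (c : ℂ) :
    (P.comp (X - C c)).Monic ∧ (P.comp (X - C c)).natDegree = d := by
  refine ⟨hm.1.comp_X_sub_C c, ?_⟩
  rw [natDegree_comp, natDegree_X_sub_C, mul_one, hm.2]

theorem coeff_comp {P : ℂ[X]} {d : ℕ} (hd : P.natDegree = d) (c : ℂ) (i : ℕ) :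
    (P.comp (X - C c)).coeff i =
      ∑ j ∈ Finset.range (d + 1), P.coeff j * ((-c) ^ (j - i) * (j.choose i : ℂ)) := by
  rw [comp, eval₂_eq_sum_range, finsetSum_coeff, hd]
  refine Finset.sum_congr rfl fun j _ => ?_
  rw [coeff_C_mul, sub_eq_add_neg, ← C_neg, coeff_X_add_C_pow]

theorem coeff_comp_pred {P : ℂ[X]} {d : ℕ} (hd : 0 < d) (hm : P.Monic ∧ P.natDegree = d) :
    (P.comp (X - C (P.coeff (d - 1) / d))).coeff (d - 1) = 0 := by
  obtain ⟨e, rfl⟩ : ∃ e, d = e + 1 := ⟨d - 1, by omega⟩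
  rw [coeff_comp hm.2, Finset.sum_range_succ, Finset.sum_range_succ, Finset.sum_eq_zero]
  · have h1 : P.coeff (e + 1) = 1 := by
      have := hm.1.coeff_natDegree
      rwa [hm.2] at this
    rw [h1]
    simp only [Nat.add_sub_cancel, Nat.choose_self, Nat.sub_self, Nat.add_sub_cancel_left,
      Nat.choose_succ_self_right, pow_zero, pow_one, Nat.cast_one, mul_one, zero_add, one_mul]
    have h2 : ((e + 1 : ℕ) : ℂ) ≠ 0 := by exact_mod_cast Nat.succ_ne_zero e
    field_simp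
    ring
  · intro j hj
    rw [Finset.mem_range] at hj
    rw [Nat.choose_eq_zero_of_lt (by omega)]
    simp

/-- all coefficients are analytic at the nearby points -/
theorem evC {q : T} {P : ℝ × T → ℂ[X]} {d : ℕ} (hd : ∀ p, (P p).natDegree = d)
    (hP : ∀ i, AnalyticAt ℝ (fun p => (P p).coeff i) (0, q)) :
    ∀ᶠ q' in 𝓝 q, ∀ i, AnalyticAt ℝ (fun p => (P p).coeff i) (0, q') := by
  have h1 : ∀ᶠ q' in 𝓝 q, ∀ i : Fin (d + 1), AnalyticAt ℝ (fun p => (P p).coeff i) (0, q') :=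
    (Filter.eventually_all).2 fun i => evA (hP i)
  filter_upwards [h1] with q' h2 i
  by_cases hi : i < d + 1
  · exact h2 ⟨i, hi⟩
  · have h3 : (fun p : ℝ × T => (P p).coeff i) = fun _ => 0 := by
      funext p
      exact coeff_eq_zero_of_natDegree_lt (by rw [hd]; omega)
    rw [h3]
    exact analyticAt_const

/-- the monic polynomial with given lower coefficients -/
noncomputable def mk {d : ℕ} (b : Fin d → ℂ) : ℂ[X] := X ^ d + ∑ i : Fin d, C (b i) * X ^ (i : ℕ)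

theorem mk_monic {d : ℕ} (b : Fin d → ℂ) : (mk b).Monic ∧ (mk b).natDegree = d := by
  have h := degree_sum_fin_lt b
  refine ⟨monic_X_pow_add h, ?_⟩
  rw [mk, natDegree_add_eq_left_of_degree_lt (by rw [degree_X_pow]; exact h), natDegree_X_pow]

theorem coeff_mk {d : ℕ} (b : Fin d → ℂ) (i : Fin d) : (mk b).coeff i = b i := by
  rw [mk, coeff_add, coeff_X_pow, if_neg (by omega), zero_add, finsetSum_coeff,
    Finset.sum_eq_single i]
  · simp
  · intro j _ hj
    rw [coeff_C_mul, coeff_X_pow, if_neg, mul_zero]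
    intro h
    exact hj (Fin.ext h.symm)
  · intro h
    exact absurd (Finset.mem_univ _) h

/-- the induction step, for polynomials without term of degree `d - 1` -/
theorem step [FiniteDimensional ℝ T] {A : Set T} (hA : Gen A) {d : ℕ} (hd : 0 < d)
    (ih : ∀ e < d, ∀ (q : T), q ∈ A → ∀ (P : ℝ × T → ℂ[X]),
      (∀ p, (P p).Monic ∧ (P p).natDegree = e) →
      (∀ i, AnalyticAt ℝ (fun p => (P p).coeff i) (0, q)) → ∀ (O : Set T), O ∈ 𝓝 q →
      ∃ q' ∈ A ∩ O, ∃ N : ℕ, 0 < N ∧ SplitN P N q')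
    {q : T} (hq : q ∈ A) {P : ℝ × T → ℂ[X]} (hm : ∀ p, (P p).Monic ∧ (P p).natDegree = d)
    (hP : ∀ i, AnalyticAt ℝ (fun p => (P p).coeff i) (0, q)) (h0 : ∀ p, (P p).coeff (d - 1) = 0)
    {O : Set T} (hO : O ∈ 𝓝 q) :
    ∃ q' ∈ A ∩ O, ∃ N : ℕ, 0 < N ∧ SplitN P N q' := by
  classical
  obtain ⟨q1, ⟨hq1, hq1O⟩, h1⟩ := Gen.exists_hasOrd hA hq (ι := Fin d)
    (f := fun i p => (P p).coeff i) (fun i => hP i) (interior_mem_nhds.2 hO)
  have h2 : ∀ i : Fin d, ∃ (k : ℕ) (g : ℝ × T → ℂ), AnalyticAt ℝ g (0, q1) ∧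
      (∀ᶠ p in 𝓝 ((0 : ℝ), q1), (P p).coeff i = p.1 ^ k • g p) ∧
      ((∀ᶠ p in 𝓝 ((0 : ℝ), q1), (P p).coeff i = 0) → g = fun _ => 0) ∧
      ((¬ ∀ᶠ p in 𝓝 ((0 : ℝ), q1), (P p).coeff i = 0) → g (0, q1) ≠ 0) := by
    intro i
    by_cases h3 : ∀ᶠ p in 𝓝 ((0 : ℝ), q1), (P p).coeff i = 0
    · refine ⟨0, fun _ => 0, analyticAt_const, ?_, fun _ => rfl, fun h => absurd h3 h⟩
      filter_upwards [h3] with p hp
      rw [hp, smul_zero]
    · rcases (h1 i).1 with h4 | ⟨k, g, hg1, hg2, hg3⟩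
      · exact absurd h4 h3
      · exact ⟨k, g, hg1, hg3, fun h => absurd h h3, fun _ => hg2⟩
  choose k g hg1 hg2 hg3 hg4 using h2
  by_cases hall : ∀ i : Fin d, ∀ᶠ p in 𝓝 ((0 : ℝ), q1), (P p).coeff i = 0
  · refine ⟨q1, ⟨hq1, interior_subset hq1O⟩, 1, one_pos, Fin d, inferInstance, fun _ _ => 0,
      fun i => analyticAt_const, ?_⟩
    filter_upwards [(Filter.eventually_all).2 hall] with p hp
    have h3 : pm 1 p = p := by simp [pm]
    rw [h3]
    simp only [map_zero, sub_zero, Finset.prod_const, Finset.card_univ, Fintype.card_fin]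
    ext j
    rw [coeff_X_pow]
    rcases lt_trichotomy j d with h | h | h
    · rw [if_neg h.ne]
      exact hp ⟨j, h⟩
    · rw [if_pos h, h]
      have := (hm p).1.coeff_natDegree
      rwa [(hm p).2] at this
    · rw [if_neg h.ne', coeff_eq_zero_of_natDegree_lt]
      rw [(hm p).2]
      exact h
  obtain ⟨i1, hi1⟩ := not_forall.1 hall
  set I : Finset (Fin d) := Finset.univ.filter fun i : Fin d =>
    ¬ ∀ᶠ p in 𝓝 ((0 : ℝ), q1), (P p).coeff i = 0 with hI
  have hmemI : ∀ i, i ∈ I ↔ ¬ ∀ᶠ p in 𝓝 ((0 : ℝ), q1), (P p).coeff i = 0 := by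
    intro i
    simp [hI]
  set M : ℕ := d.factorial with hM
  have hMpos : 0 < M := Nat.factorial_pos d
  have hdvd : ∀ i : Fin d, (d - i) ∣ M := fun i =>
    Nat.dvd_factorial (by have := i.2; omega) (Nat.sub_le _ _)
  obtain ⟨i0, hi0, hmin⟩ := Finset.exists_min_image I (fun i => M * k i / (d - i))
    ⟨i1, (hmemI i1).2 hi1⟩
  set R : ℕ := M * k i0 / (d - i0) with hR
  have key : ∀ i ∈ I, R * (d - i) ≤ M * k i := by
    intro i hi
    have h3 := hmin i hi
    exact (Nat.le_div_iff_mul_le (by have := i.2; omega)).1 h3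
  have key0 : R * (d - i0) = M * k i0 :=
    Nat.div_mul_cancel (dvd_mul_of_dvd_left (hdvd i0) _)
  set b : ℝ × T → Fin d → ℂ := fun p i =>
    (p.1 : ℂ) ^ (M * k i - R * (d - i)) * g i (pm M p) with hb
  set Q : ℝ × T → ℂ[X] := fun p => mk (b p) with hQ
  have hQm : ∀ p, (Q p).Monic ∧ (Q p).natDegree = d := fun p => mk_monic _
  have hbA : ∀ i, AnalyticAt ℝ (fun p => b p i) (0, q1) := by
    intro i
    refine AnalyticAt.mul ?_ (analyticAt_comp_pm (hg1 i) hMpos)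
    exact ((Complex.ofRealCLM.analyticAt _).comp analyticAt_fst).pow _
  have hQA : ∀ i, AnalyticAt ℝ (fun p => (Q p).coeff i) (0, q1) := by
    intro j
    rcases lt_trichotomy j d with h | h | h
    · have h3 : (fun p => (Q p).coeff j) = fun p => b p ⟨j, h⟩ := by
        funext p
        exact coeff_mk (b p) ⟨j, h⟩
      rw [h3]
      exact hbA _
    · have h3 : (fun p => (Q p).coeff j) = fun _ => 1 := by
        funext p
        rw [h]
        have := (hQm p).1.coeff_natDegree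
        rwa [(hQm p).2] at this
      rw [h3]
      exact analyticAt_const
    · have h3 : (fun p => (Q p).coeff j) = fun _ => 0 := by
        funext p
        exact coeff_eq_zero_of_natDegree_lt (by rw [(hQm p).2]; exact h)
      rw [h3]
      exact analyticAt_const
  have hscale : ∀ᶠ p in 𝓝 ((0 : ℝ), q1), P (pm M p) = scaleRoots (Q p) ((p.1 : ℂ) ^ R) := by
    filter_upwards [(tendsto_pm hMpos q1).eventually ((Filter.eventually_all).2 hg2)] with p hp
    ext j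
    rw [coeff_scaleRoots, (hQm p).2]
    rcases lt_trichotomy j d with h | h | h
    · have h3 := hp ⟨j, h⟩
      have h4 : (Q p).coeff j = b p ⟨j, h⟩ := coeff_mk (b p) ⟨j, h⟩
      simp only at h3
      rw [h3, h4, hb]
      simp only
      by_cases hj : (⟨j, h⟩ : Fin d) ∈ I
      · have h5 := key _ hj
        simp only at h5
        have h6 : M * k ⟨j, h⟩ = (M * k ⟨j, h⟩ - R * (d - j)) + R * (d - j) := by omega
        rw [Complex.real_smul]
        simp only [pm]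
        rw [← pow_mul]
        push_cast
        rw [← pow_mul]
        conv_lhs => rw [h6, pow_add]
        ring
      · have h5 := hg3 ⟨j, h⟩ (by
          by_contra h6
          exact hj ((hmemI _).2 h6))
        rw [h5]
        simp
    · rw [h, Nat.sub_self, pow_zero, mul_one]
      have h3 := (hm (pm M p)).1.coeff_natDegree
      have h4 := (hQm p).1.coeff_natDegree
      rw [(hm (pm M p)).2] at h3
      rw [(hQm p).2] at h4
      rw [h3, h4]
    · rw [coeff_eq_zero_of_natDegree_lt (by rw [(hm _).2]; exact h),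
        coeff_eq_zero_of_natDegree_lt (by rw [(hQm p).2]; exact h), zero_mul]
  have hQ0 : (Q (0, q1)).coeff (d - 1) = 0 := by
    have h3 : (Q (0, q1)).coeff (d - 1) = b (0, q1) ⟨d - 1, by omega⟩ :=
      coeff_mk (b (0, q1)) ⟨d - 1, by omega⟩
    rw [h3, hb]
    have h4 := hg3 ⟨d - 1, by omega⟩ (Filter.Eventually.of_forall fun p => h0 p)
    simp only [h4, mul_zero]
  have hQne : Q (0, q1) ≠ X ^ d := by
    intro h3
    have h4 : (Q (0, q1)).coeff i0 = b (0, q1) i0 := coeff_mk (b (0, q1)) i0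
    rw [h3, coeff_X_pow, if_neg i0.2.ne, hb] at h4
    simp only [key0, Nat.sub_self, pow_zero, one_mul, pm_zero hMpos] at h4
    exact hg4 i0 ((hmemI i0).1 hi0) h4.symm
  obtain ⟨Q1, Q2, hQ1m, hQ2m, hd1, hd2, hsum, hco, hfac⟩ :=
    exists_factor hd (hQm (0, q1)).1 (hQm (0, q1)).2 hQ0 hQne
  obtain ⟨R1, R2, hR1, hR2, hR1A, hR2A, -, -, hR⟩ := hensel (P := Q) (y0 := ((0 : ℝ), q1))
    (d1 := Q1.natDegree) (d2 := Q2.natDegree)
    (fun y => ⟨(hQm y).1, by rw [(hQm y).2, hsum]⟩) hQA hQ1m hQ2m rfl rfl hco hfac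
  -- the first factor
  set W : Set T := {q' | (∀ᶠ p in 𝓝 ((0 : ℝ), q'), P (pm M p) = scaleRoots (Q p) ((p.1 : ℂ) ^ R)) ∧
    (∀ᶠ p in 𝓝 ((0 : ℝ), q'), Q p = R1 p * R2 p) ∧
    (∀ i, AnalyticAt ℝ (fun p => (R2 p).coeff i) (0, q')) ∧ q' ∈ O} with hW
  have hWn : W ∈ 𝓝 q1 := by
    filter_upwards [ev hscale, ev hR, evC (fun p => (hR2 p).2) hR2A,
      mem_interior_iff_mem_nhds.1 hq1O] with q' h3 h4 h5 h6
    exact ⟨h3, h4, h5, h6⟩
  obtain ⟨q2, ⟨hq2, hq2W⟩, N1, hN1, hs1⟩ := ih _ hd1 q1 hq1 R1 hR1 hR1A (interior W)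
    (interior_mem_nhds.2 hWn)
  -- the second factor
  obtain ⟨q3, ⟨hq3, hq3W, hq3s⟩, N2, hN2, hs2⟩ := ih _ hd2 q2 hq2 (fun p => R2 (pm N1 p))
    (fun p => hR2 _) (fun i => analyticAt_comp_pm ((interior_subset hq2W).2.2.1 i) hN1)
    (W ∩ {q' | SplitN R1 N1 q'})
    (Filter.inter_mem (mem_interior_iff_mem_nhds.1 hq2W) hs1.ev)
  exact ⟨q3, ⟨hq3, hq3W.2.2.2⟩, M * (N1 * N2), Nat.mul_pos hMpos (Nat.mul_pos hN1 hN2),
    SplitN.scale (Nat.mul_pos hN1 hN2) hq3W.1 (SplitN.mul hN1 hN2 hq3W.2.1 hq3s hs2)⟩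

theorem main [FiniteDimensional ℝ T] {A : Set T} (hA : Gen A) (d : ℕ) :
    ∀ (q : T), q ∈ A → ∀ (P : ℝ × T → ℂ[X]), (∀ p, (P p).Monic ∧ (P p).natDegree = d) →
      (∀ i, AnalyticAt ℝ (fun p => (P p).coeff i) (0, q)) → ∀ (O : Set T), O ∈ 𝓝 q →
      ∃ q' ∈ A ∩ O, ∃ N : ℕ, 0 < N ∧ SplitN P N q' := by
  induction d using Nat.strong_induction_on with
  | _ d ih =>
  intro q hq P hm hP O hO
  rcases Nat.eq_zero_or_pos d with hd | hd
  · refine ⟨q, ⟨hq, mem_of_mem_nhds hO⟩, 1, one_pos, Empty, inferInstance, fun i => i.elim,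
      fun i => i.elim, ?_⟩
    refine Filter.Eventually.of_forall fun p => ?_
    rw [Finset.univ_eq_empty, Finset.prod_empty]
    exact (hm _).1.natDegree_eq_zero.1 (by rw [(hm _).2, hd])
  have hcA : AnalyticAt ℝ (fun p : ℝ × T => (P p).coeff (d - 1) / d) (0, q) := (hP (d - 1)).div_const
  obtain ⟨q', ⟨h1, h2, h3⟩, N, hN, h4⟩ := step hA hd ih hq
    (P := fun p => (P p).comp (X - C ((P p).coeff (d - 1) / d)))
    (fun p => comp_monic (hm p) _) (fun i => by
      have h5 : (fun p : ℝ × T => ((P p).comp (X - C ((P p).coeff (d - 1) / d))).coeff i) =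
          fun p => ∑ j ∈ Finset.range (d + 1), (P p).coeff j *
            ((-((P p).coeff (d - 1) / d)) ^ (j - i) * (j.choose i : ℂ)) := by
        funext p
        exact coeff_comp (hm p).2 _ i
      rw [h5]
      refine Finset.analyticAt_fun_sum _ fun j _ => ?_
      exact (hP j).mul ((hcA.neg.pow _).mul analyticAt_const))
    (fun p => coeff_comp_pred hd (hm p))
    (O := O ∩ {q' | AnalyticAt ℝ (fun p : ℝ × T => (P p).coeff (d - 1) / d) (0, q')})
    (Filter.inter_mem hO (evA hcA))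
  exact ⟨q', ⟨h1, h2⟩, N, hN, h4.shift hN h3⟩

end Puiseux

open Puiseux

variable {T : Type} [NormedAddCommGroup T] [NormedSpace ℝ T] [FiniteDimensional ℝ T]

/-- Newton-Puiseux theorem with parameters, at suitable points of `A`. -/
theorem Gen.puiseux {A : Set T} (hA : Gen A) (d : ℕ) {q : T} (hq : q ∈ A) {P : ℝ × T → ℂ[X]}
    (hm : ∀ p, (P p).Monic ∧ (P p).natDegree = d)
    (hP : ∀ i, AnalyticAt ℝ (fun p => (P p).coeff i) (0, q)) {O : Set T} (hO : O ∈ 𝓝 q) :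
    ∃ q' ∈ A ∩ O, ∃ N : ℕ, 0 < N ∧ ∃ β : Fin d → ℝ × T → ℂ,
      (∀ i, AnalyticAt ℝ (β i) (0, q')) ∧
      ∀ᶠ p in 𝓝 ((0 : ℝ), q'), P (p.1 ^ N, p.2) = ∏ i, (X - C (β i p)) := by
  obtain ⟨q', hq', N, hN, κ, _, β, h1, h2⟩ := main hA d q hq P hm hP O hO
  have h3 : Fintype.card κ = d := by
    have h4 := h2.self_of_nhds
    have h5 := (hm (pm N (0, q'))).2
    rw [h4, natDegree_finsetProd_X_sub_C_eq_card, Finset.card_univ] at h5
    exact h5
  have e := Fintype.equivFinOfCardEq h3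
  refine ⟨q', hq', N, hN, fun i => β (e.symm i), fun i => h1 _, ?_⟩
  filter_upwards [h2] with p hp
  rw [← e.symm.prod_comp] at hp
  exact hp

end Vale.Agent.P218CS
end

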