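import Mathlib
import Vale.Agent.P218CS.W3

set_option linter.all false

section

/-! TASK W4. -/

open Filter Topology Polynomial

namespace Vale.Agent.P218CS

variable {T : Type} [NormedAddCommGroup T] [NormedSpace ℝ T]

/-- A real function with an order is zero or has a constant sign for positive values of the first
variable. -/
theorem HasOrd.sign {f : ℝ × T → ℝ} {q : T} (h : HasOrd f q) :
    (∀ᶠ p in 𝓝 ((0 : ℝ), q), f p = 0) ∨ (∀ᶠ p in 𝓝 ((0 : ℝ), q), 0 < p.1 → 0 < f p) ∨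
      (∀ᶠ p in 𝓝 ((0 : ℝ), q), 0 < p.1 → f p < 0) := by
  rcases h with h | ⟨k, g, hg, hg0, hf⟩
  · exact Or.inl h
  · right
    have hc : ContinuousAt g (0, q) := hg.continuousAt
    rcases lt_or_gt_of_ne hg0 with h0 | h0
    · right
      filter_upwards [hf, hc.eventually_lt_const h0] with p hp hp2 hp1
      rw [hp, smul_eq_mul]
      exact mul_neg_of_pos_of_neg (pow_pos hp1 k) hp2
    · left
      filter_upwards [hf, hc.eventually_const_lt h0] with p hp hp2 hp1
      rw [hp, smul_eq_mul]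
      exact mul_pos (pow_pos hp1 k) hp2

omit [NormedSpace ℝ T] in
/-- there are points with positive first variable near `(0, q)` -/
theorem realRoots_exists {q : T} {S : ℝ × T → Prop} (h : ∀ᶠ p in 𝓝 ((0 : ℝ), q), S p) :
    ∃ p : ℝ × T, 0 < p.1 ∧ S p := by
  have h1 : Tendsto (fun s : ℝ => (s, q)) (𝓝[>] 0) (𝓝 ((0 : ℝ), q)) := by
    have h2 : Continuous fun s : ℝ => (s, q) := by fun_prop
    exact (h2.tendsto 0).mono_left nhdsWithin_le_nhds
  obtain ⟨s, hs, hs2⟩ := ((h1.eventually h).and self_mem_nhdsWithin).exists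
  exact ⟨(s, q), hs2, hs⟩

/-- selection of the ordered real roots -/
theorem realRoots_select {q : T} {d : ℕ} {β : Fin d → ℝ × T → ℂ}
    (him : ∀ i, HasOrd (fun p => (β i p).im) q)
    (hre : ∀ i j, HasOrd (fun p => (β i p).re - (β j p).re) q) :
    ∃ (l : ℕ) (c : Fin l → Fin d), ∀ᶠ p in 𝓝 ((0 : ℝ), q), 0 < p.1 →
      (∀ x : ℝ, (∃ i, (x : ℂ) = β i p) ↔ ∃ i, x = (β (c i) p).re) ∧
      StrictMono (fun i => (β (c i) p).re) := by
  classical
  -- the real branches
  let I : Finset (Fin d) := Finset.univ.filter fun i => ∀ᶠ p in 𝓝 ((0 : ℝ), q), (β i p).im = 0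
  have hI : ∀ i, i ∈ I ↔ ∀ᶠ p in 𝓝 ((0 : ℝ), q), (β i p).im = 0 := by
    intro i
    simp [I]
  have hI' : ∀ i, i ∉ I → ∀ᶠ p in 𝓝 ((0 : ℝ), q), 0 < p.1 → (β i p).im ≠ 0 := by
    intro i hi
    rcases (him i).sign with h | h | h
    · exact absurd ((hI i).2 h) hi
    · filter_upwards [h] with p hp hp1 using (hp hp1).ne'
    · filter_upwards [h] with p hp hp1 using (hp hp1).ne
  -- all eventual statements about one pair
  have hpair : ∀ i j, ∀ᶠ p in 𝓝 ((0 : ℝ), q), 0 < p.1 →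
      (((β i p).re = (β j p).re → ∀ᶠ p' in 𝓝 ((0 : ℝ), q), (β i p').re = (β j p').re) ∧
      ((β i p).re < (β j p).re → ∀ᶠ p' in 𝓝 ((0 : ℝ), q), 0 < p'.1 →
        (β i p').re < (β j p').re)) := by
    intro i j
    rcases (hre i j).sign with h | h | h
    · have h' : ∀ᶠ p' in 𝓝 ((0 : ℝ), q), (β i p').re = (β j p').re := by
        filter_upwards [h] with p hp using by linarith
      filter_upwards [h] with p hp _
      exact ⟨fun _ => h', fun h2 => absurd hp (by
        intro h3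
        linarith)⟩
    · filter_upwards [h] with p hp hp1
      have h1 := hp hp1
      exact ⟨fun h2 => by linarith, fun h2 => by linarith⟩
    · have h' : ∀ᶠ p' in 𝓝 ((0 : ℝ), q), 0 < p'.1 → (β i p').re < (β j p').re := by
        filter_upwards [h] with p hp hp1
        have := hp hp1
        linarith
      filter_upwards [h] with p hp hp1
      have h1 := hp hp1
      exact ⟨fun h2 => by linarith, fun _ => h'⟩
  have hall : ∀ᶠ p in 𝓝 ((0 : ℝ), q), ∀ i j, 0 < p.1 →
      (((β i p).re = (β j p).re → ∀ᶠ p' in 𝓝 ((0 : ℝ), q), (β i p').re = (β j p').re) ∧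
      ((β i p).re < (β j p).re → ∀ᶠ p' in 𝓝 ((0 : ℝ), q), 0 < p'.1 →
        (β i p').re < (β j p').re)) :=
    Filter.eventually_all.2 fun i => Filter.eventually_all.2 fun j => hpair i j
  obtain ⟨p1, hp1, hp1'⟩ := realRoots_exists hall
  -- the ordered set of values at `p1`
  let Fv : Finset ℝ := I.image fun i => (β i p1).re
  have hc : ∀ m : Fin Fv.card, ∃ i ∈ I, (β i p1).re = Fv.orderEmbOfFin rfl m := by
    intro m
    have h := Finset.orderEmbOfFin_mem Fv rfl m
    exact Finset.mem_image.1 h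
  choose c hcI hcv using hc
  refine ⟨Fv.card, c, ?_⟩
  have e1 : ∀ᶠ p in 𝓝 ((0 : ℝ), q), ∀ i, i ∈ I → (β i p).im = 0 := by
    refine Filter.eventually_all.2 fun i => ?_
    by_cases hi : i ∈ I
    · filter_upwards [(hI i).1 hi] with p hp _ using hp
    · exact Filter.Eventually.of_forall fun p h => absurd h hi
  have e2 : ∀ᶠ p in 𝓝 ((0 : ℝ), q), ∀ i, i ∉ I → 0 < p.1 → (β i p).im ≠ 0 := by
    refine Filter.eventually_all.2 fun i => ?_
    by_cases hi : i ∈ I
    · exact Filter.Eventually.of_forall fun p h => absurd hi h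
    · filter_upwards [hI' i hi] with p hp _ using hp
  have e3 : ∀ᶠ p in 𝓝 ((0 : ℝ), q), ∀ i j, (β i p1).re = (β j p1).re →
      (β i p).re = (β j p).re := by
    refine Filter.eventually_all.2 fun i => Filter.eventually_all.2 fun j => ?_
    by_cases hij : (β i p1).re = (β j p1).re
    · filter_upwards [(hp1' i j hp1).1 hij] with p hp _ using hp
    · exact Filter.Eventually.of_forall fun p h => absurd h hij
  have e4 : ∀ᶠ p in 𝓝 ((0 : ℝ), q), ∀ i j, (β i p1).re < (β j p1).re → 0 < p.1 →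
      (β i p).re < (β j p).re := by
    refine Filter.eventually_all.2 fun i => Filter.eventually_all.2 fun j => ?_
    by_cases hij : (β i p1).re < (β j p1).re
    · filter_upwards [(hp1' i j hp1).2 hij] with p hp _ using hp
    · exact Filter.Eventually.of_forall fun p h => absurd h hij
  filter_upwards [e1, e2, e3, e4] with p h1 h2 h3 h4 hp
  refine ⟨fun x => ?_, ?_⟩
  · constructor
    · rintro ⟨i, hi⟩
      have hiI : i ∈ I := by
        by_contra hne
        apply h2 i hne hp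
        rw [← hi, Complex.ofReal_im]
      have hv : (β i p1).re ∈ Fv := Finset.mem_image.2 ⟨i, hiI, rfl⟩
      have hr : (β i p1).re ∈ Set.range (Fv.orderEmbOfFin rfl) := by
        rw [Finset.range_orderEmbOfFin]
        exact hv
      obtain ⟨m, hm⟩ := hr
      refine ⟨m, ?_⟩
      rw [h3 (c m) i ((hcv m).trans hm), ← hi, Complex.ofReal_re]
    · rintro ⟨m, hm⟩
      refine ⟨c m, ?_⟩
      refine Complex.ext ?_ ?_
      · rw [Complex.ofReal_re, hm]
      · rw [Complex.ofReal_im, h1 (c m) (hcI m)]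
  · intro m m' hmm
    refine h4 (c m) (c m') ?_ hp
    rw [hcv m, hcv m']
    exact (Fv.orderEmbOfFin rfl).strictMono hmm

variable [FiniteDimensional ℝ T]

/-- The real roots, for positive values of the first variable, at suitable points of `A`. -/
theorem Gen.real_roots {A : Set T} (hA : Gen A) {d : ℕ} {q : T} (hq : q ∈ A) {P : ℝ × T → ℝ[X]}
    (hm : ∀ p, (P p).Monic ∧ (P p).natDegree = d)
    (hP : ∀ i, AnalyticAt ℝ (fun p => (P p).coeff i) (0, q)) {O : Set T} (hO : O ∈ 𝓝 q) :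
    ∃ q' ∈ A ∩ O, ∃ N : ℕ, 0 < N ∧ ∃ (l : ℕ) (γ : Fin l → ℝ × T → ℝ),
      (∀ i, AnalyticAt ℝ (γ i) (0, q')) ∧
      ∀ᶠ p in 𝓝 ((0 : ℝ), q'), 0 < p.1 →
        (∀ x : ℝ, (P (p.1 ^ N, p.2)).eval x = 0 ↔ ∃ i, x = γ i p) ∧
        StrictMono (fun i => γ i p) := by
  obtain ⟨q1, hq1, N, hN, β, hβ, hβP⟩ := hA.puiseux d hq
    (P := fun p => (P p).map (algebraMap ℝ ℂ)) (fun p => ⟨(hm p).1.map _, by
      rw [(hm p).1.natDegree_map, (hm p).2]⟩) (fun i => by
      simp only [Polynomial.coeff_map]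
      exact (Complex.ofRealCLM.analyticAt _).comp (hP i)) (interior_mem_nhds.2 hO)
  have hO1 : O ∈ 𝓝 q1 := mem_interior_iff_mem_nhds.1 hq1.2
  have hslice : Tendsto (fun t : T => ((0 : ℝ), t)) (𝓝 q1) (𝓝 ((0 : ℝ), q1)) := by
    have h2 : Continuous fun t : T => ((0 : ℝ), t) := by fun_prop
    exact h2.tendsto q1
  have hβP1 : ∀ᶠ t in 𝓝 q1, ∀ᶠ p in 𝓝 ((0 : ℝ), t),
      (P (p.1 ^ N, p.2)).map (algebraMap ℝ ℂ) = ∏ i, (X - C (β i p)) :=
    hslice.eventually (eventually_eventually_nhds.2 hβP)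
  have hβ1 : ∀ᶠ t in 𝓝 q1, ∀ i, AnalyticAt ℝ (β i) ((0 : ℝ), t) :=
    Filter.eventually_all.2 fun i => hslice.eventually (hβ i).eventually_analyticAt
  have hO2 : {t : T | t ∈ O ∧ (∀ᶠ p in 𝓝 ((0 : ℝ), t),
      (P (p.1 ^ N, p.2)).map (algebraMap ℝ ℂ) = ∏ i, (X - C (β i p))) ∧
      ∀ i, AnalyticAt ℝ (β i) ((0 : ℝ), t)} ∈ 𝓝 q1 := by
    filter_upwards [hO1, hβP1, hβ1] with t h1 h2 h3
    exact ⟨h1, h2, h3⟩
  obtain ⟨q2, hq2, hord⟩ := hA.exists_hasOrd hq1.1 (ι := Fin d ⊕ (Fin d × Fin d)) (F := ℝ)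
    (f := Sum.elim (fun i p => (β i p).im) (fun ij p => (β ij.1 p).re - (β ij.2 p).re)) (by
      rintro (i | ⟨i, j⟩)
      · exact (Complex.imCLM.analyticAt _).comp (hβ i)
      · exact ((Complex.reCLM.analyticAt _).comp (hβ i)).sub
          ((Complex.reCLM.analyticAt _).comp (hβ j))) hO2
  obtain ⟨hq2A, hq2O, hfac, han⟩ := hq2
  obtain ⟨l, c, hlc⟩ := realRoots_select (q := q2) (β := β) (fun i => (hord (Sum.inl i)).1)
    (fun i j => (hord (Sum.inr (i, j))).1)
  refine ⟨q2, ⟨hq2A, hq2O⟩, N, hN, l, fun i p => (β (c i) p).re, fun i =>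
    (Complex.reCLM.analyticAt _).comp (han (c i)), ?_⟩
  filter_upwards [hfac, hlc] with p hp1 hp2 hp
  obtain ⟨h1, h2⟩ := hp2 hp
  refine ⟨fun x => ?_, h2⟩
  rw [← h1 x]
  have e1 : ((P (p.1 ^ N, p.2)).map (algebraMap ℝ ℂ)).eval (x : ℂ) =
      (((P (p.1 ^ N, p.2)).eval x : ℝ) : ℂ) := by
    have := Polynomial.eval_map_algebraMap (P (p.1 ^ N, p.2)) (x : ℂ)
    rw [this]
    exact Polynomial.aeval_algebraMap_apply_eq_algebraMap_eval x _
  rw [hp1, Polynomial.eval_prod] at e1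
  constructor
  · intro h0
    rw [h0, Complex.ofReal_zero, Finset.prod_eq_zero_iff] at e1
    obtain ⟨i, -, hi⟩ := e1
    refine ⟨i, ?_⟩
    rw [eval_sub, eval_X, eval_C, sub_eq_zero] at hi
    exact hi
  · rintro ⟨i, hi⟩
    have h3 : ∏ i, eval (x : ℂ) (X - C (β i p)) = 0 := by
      refine Finset.prod_eq_zero (Finset.mem_univ i) ?_
      rw [eval_sub, eval_X, eval_C, sub_eq_zero]
      exact hi
    rw [h3] at e1
    exact_mod_cast e1.symm

end Vale.Agent.P218CS
end

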