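import Mathlib

set_option linter.all false

section

/-! TASK W5. -/

open Filter Topology Polynomial

namespace Vale.Agent.P218CS

/-- Clearing the denominators of one polynomial. -/
private lemma exists_clear {R K : Type} [CommRing R] [IsDomain R] [Field K] [Algebra R K]
    [IsFractionRing R K] (p : K[X]) :
    ∃ (q : R[X]) (c : R), c ≠ 0 ∧
      q.map (algebraMap R K) = C (algebraMap R K c) * p := by
  obtain ⟨b, hb, h⟩ := IsLocalization.integerNormalization_spec (nonZeroDivisors R) p
  refine ⟨_, b, nonZeroDivisors.ne_zero hb, h.trans ?_⟩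
  ext i
  rw [coeff_smul, coeff_C_mul, Algebra.smul_def]

private lemma elimination_aux {R K : Type} [CommRing R] [IsDomain R] [Field K] [CharZero K]
    [Algebra R K] [IsFractionRing R K] {f : R[X]} (hf : f ≠ 0) :
    ∃ (g a b h : R[X]) (Δ : R) (n : ℕ), Δ ≠ 0 ∧ C Δ * g ^ n = f * h ∧
      a * g + b * derivative g = C Δ := by
  classical
  have hφi : Function.Injective (algebraMap R K) := IsFractionRing.injective R K
  have hmi : Function.Injective (Polynomial.map (algebraMap R K)) :=
    Polynomial.map_injective _ hφi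
  have hfK : f.map (algebraMap R K) ≠ 0 := by
    intro h
    exact hf (hmi (by rw [h, Polynomial.map_zero]))
  obtain ⟨gK, hsq, n, hK', hn⟩ : ∃ gK : K[X], Squarefree gK ∧ ∃ (n : ℕ) (h : K[X]),
      gK ^ n = f.map (algebraMap R K) * h := by
    obtain ⟨n, hn⟩ := UniqueFactorizationMonoid.exists_dvd_radical_self_pow hfK
    exact ⟨_, UniqueFactorizationMonoid.squarefree_radical, n, hn⟩
  obtain ⟨aK, bK, hab⟩ := PerfectField.separable_iff_squarefree.2 hsq
  obtain ⟨g, cg, hcg, hg⟩ := exists_clear (R := R) gK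
  obtain ⟨a, ca, hca, ha⟩ := exists_clear (R := R) aK
  obtain ⟨b, cb, hcb, hb⟩ := exists_clear (R := R) bK
  obtain ⟨h, ch, hch, hh⟩ := exists_clear (R := R) hK'
  have hdg : (derivative g).map (algebraMap R K) =
      C (algebraMap R K cg) * derivative gK := by
    rw [← derivative_map, hg, derivative_C_mul]
  refine ⟨g, C (cb * ch) * a, C (ca * ch) * b, C (cg ^ n * (ca * cb * cg)) * h,
    ca * cb * cg * ch, n, mul_ne_zero (mul_ne_zero (mul_ne_zero hca hcb) hcg) hch, ?_, ?_⟩
  · apply hmi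
    simp only [Polynomial.map_mul, Polynomial.map_pow, map_C, hg, hh, map_mul, map_pow, mul_pow]
    rw [hn]
    ring
  · apply hmi
    simp only [Polynomial.map_mul, Polynomial.map_add, map_C, hg, ha, hb, hdg, map_mul]
    linear_combination (C (algebraMap R K ca) * C (algebraMap R K cb) *
      C (algebraMap R K cg) * C (algebraMap R K ch)) * hab

/-- Separable part, with denominators cleared. -/
theorem elimination {R : Type} [CommRing R] [IsDomain R] [CharZero R] {f : R[X]} (hf : f ≠ 0) :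
    ∃ (g a b h : R[X]) (Δ : R) (n : ℕ), Δ ≠ 0 ∧ C Δ * g ^ n = f * h ∧
      a * g + b * derivative g = C Δ := by
  have : CharZero (FractionRing R) := IsFractionRing.charZero_of_isFractionRing R
  exact elimination_aux (K := FractionRing R) hf

variable {Y : Type} [NormedAddCommGroup Y] [NormedSpace ℝ Y] [FiniteDimensional ℝ Y]

/-- The functions that are analytic at a point. -/
private def anSub (p0 : Y) : Subring (Y → ℝ) where
  carrier := {f | AnalyticAt ℝ f p0}
  mul_mem' := fun hf hg => hf.mul hg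
  one_mem' := analyticAt_const
  add_mem' := fun hf hg => hf.add hg
  zero_mem' := analyticAt_const
  neg_mem' := fun hf => hf.neg

/-- The ring of germs, as a quotient of the functions analytic at the point. -/
private noncomputable def toGerm (p0 : Y) : anSub p0 →+* Germ (𝓝 p0) ℝ :=
  (Germ.coeRingHom (𝓝 p0)).comp (anSub p0).subtype

omit [FiniteDimensional ℝ Y] in
private lemma toGerm_eq_zero_iff {p0 : Y} (f : anSub p0) :
    toGerm p0 f = 0 ↔ ∀ᶠ y in 𝓝 p0, (f : Y → ℝ) y = 0 := by
  change ((f : Y → ℝ) : Germ (𝓝 p0) ℝ) = ((0 : Y → ℝ) : Germ (𝓝 p0) ℝ) ↔ _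
  rw [Germ.coe_eq]
  rfl

omit [FiniteDimensional ℝ Y] in
private lemma eventually_zero_or {p0 : Y} {f g : Y → ℝ} (hf : AnalyticAt ℝ f p0)
    (hg : AnalyticAt ℝ g p0) (hfg : ∀ᶠ y in 𝓝 p0, f y * g y = 0) :
    (∀ᶠ y in 𝓝 p0, f y = 0) ∨ ∀ᶠ y in 𝓝 p0, g y = 0 := by
  obtain ⟨r, hr, hB⟩ := Metric.eventually_nhds_iff_ball.1
    ((hf.eventually_analyticAt.and hg.eventually_analyticAt).and hfg)
  by_cases h : ∃ q ∈ Metric.ball p0 r, f q ≠ 0
  · right
    obtain ⟨q, hq, hfq⟩ := h
    have h1 : ∀ᶠ y in 𝓝 q, f y ≠ 0 := (hB q hq).1.1.continuousAt.eventually_ne hfq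
    have h2 : ∀ᶠ y in 𝓝 q, y ∈ Metric.ball p0 r := Metric.isOpen_ball.mem_nhds hq
    have h3 : g =ᶠ[𝓝 q] 0 := by
      filter_upwards [h1, h2] with y hy1 hy2
      exact (mul_eq_zero.1 (hB y hy2).2).resolve_left hy1
    have h4 := AnalyticOnNhd.eqOn_zero_of_preconnected_of_eventuallyEq_zero
      (fun y hy => (hB y hy).1.2 : AnalyticOnNhd ℝ g (Metric.ball p0 r))
      (convex_ball p0 r).isPreconnected hq h3
    exact Metric.eventually_nhds_iff_ball.2 ⟨r, hr, fun y hy => h4 hy⟩
  · left
    push Not at h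
    exact Metric.eventually_nhds_iff_ball.2 ⟨r, hr, h⟩

omit [FiniteDimensional ℝ Y] in
private lemma isDomain_range (p0 : Y) : IsDomain (toGerm p0).range := by
  have : NoZeroDivisors (toGerm p0).range := by
    refine ⟨fun {x y} hxy => ?_⟩
    obtain ⟨x, f, rfl⟩ := x
    obtain ⟨y, g, rfl⟩ := y
    have h1 : toGerm p0 f * toGerm p0 g = 0 := congrArg Subtype.val hxy
    rw [← map_mul, toGerm_eq_zero_iff] at h1
    rcases eventually_zero_or f.2 g.2 h1 with h | h
    · left
      exact Subtype.ext ((toGerm_eq_zero_iff f).2 h)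
    · right
      exact Subtype.ext ((toGerm_eq_zero_iff g).2 h)
  have : Nontrivial (toGerm p0).range := by
    refine ⟨0, 1, fun h => ?_⟩
    have h1 : toGerm p0 1 = 0 := by
      rw [map_one]
      exact (congrArg Subtype.val h).symm
    rw [toGerm_eq_zero_iff] at h1
    exact one_ne_zero (α := ℝ) h1.self_of_nhds
  exact NoZeroDivisors.to_isDomain _

omit [FiniteDimensional ℝ Y] in
private lemma charZero_range (p0 : Y) : CharZero (toGerm p0).range := by
  refine ⟨fun m n hmn => ?_⟩
  have h1 : toGerm p0 ((m : anSub p0) - n) = 0 := by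
    rw [map_sub, map_natCast, map_natCast, sub_eq_zero]
    have := congrArg Subtype.val hmn
    simpa using this
  rw [toGerm_eq_zero_iff] at h1
  have h2 : (m : ℝ) - n = 0 := h1.self_of_nhds
  exact_mod_cast sub_eq_zero.1 h2

/-- The evaluation at a point. -/
private noncomputable def evp (p0 y : Y) : anSub p0 →+* ℝ :=
  (Pi.evalRingHom (fun _ : Y => ℝ) y).comp (anSub p0).subtype

omit [FiniteDimensional ℝ Y] in
private lemma evp_apply (p0 y : Y) (f : anSub p0) : evp p0 y f = (f : Y → ℝ) y := rfl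

omit [FiniteDimensional ℝ Y] in
private lemma eventually_map_eq_zero {p0 : Y} (E : (anSub p0)[X])
    (hE : E.map (toGerm p0).rangeRestrict = 0) : ∀ᶠ y in 𝓝 p0, E.map (evp p0 y) = 0 := by
  have h1 : ∀ i, ∀ᶠ y in 𝓝 p0, (E.coeff i : Y → ℝ) y = 0 := by
    intro i
    rw [← toGerm_eq_zero_iff]
    have h2 := congrArg (fun q => q.coeff i) hE
    simp only [coeff_map, coeff_zero] at h2
    exact congrArg Subtype.val h2
  have h3 : ∀ᶠ y in 𝓝 p0, ∀ i ∈ Finset.range (E.natDegree + 1), (E.coeff i : Y → ℝ) y = 0 :=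
    (Filter.eventually_all_finset _).2 fun i _ => h1 i
  filter_upwards [h3] with y hy
  ext i
  rw [coeff_map, coeff_zero, evp_apply]
  by_cases hi : i ∈ Finset.range (E.natDegree + 1)
  · exact hy i hi
  · rw [coeff_eq_zero_of_natDegree_lt (by simpa using hi)]
    rfl

/-- Off the zero set of a nonzero analytic function, the zeros of a monic polynomial with analytic
coefficients are simple zeros of another polynomial with analytic coefficients. -/
theorem elimination_analytic {p0 : Y} {P : Y → ℝ[X]} {d : ℕ}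
    (hm : ∀ y, (P y).Monic ∧ (P y).natDegree = d)
    (hP : ∀ i, AnalyticAt ℝ (fun y => (P y).coeff i) p0) :
    ∃ (g : Y → ℝ[X]) (Δ : Y → ℝ) (N : ℕ), (∀ i, AnalyticAt ℝ (fun y => (g y).coeff i) p0) ∧
      (∀ y, (g y).natDegree ≤ N) ∧ AnalyticAt ℝ Δ p0 ∧ (¬ ∀ᶠ y in 𝓝 p0, Δ y = 0) ∧
      ∀ᶠ y in 𝓝 p0, Δ y ≠ 0 → ∀ x : ℝ, (P y).eval x = 0 →
        (g y).eval x = 0 ∧ (derivative (g y)).eval x ≠ 0 := by
  have := isDomain_range p0
  have := charZero_range p0
  set ρ := (toGerm p0).rangeRestrict with hρ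
  have hρs : Function.Surjective ρ := (toGerm p0).rangeRestrict_surjective
  have hρm : Function.Surjective (Polynomial.map ρ) := Polynomial.map_surjective ρ hρs
  let PA : (anSub p0)[X] := ∑ i ∈ Finset.range (d + 1),
    monomial i (⟨fun y => (P y).coeff i, hP i⟩ : anSub p0)
  have hPA : ∀ y, PA.map (evp p0 y) = P y := by
    intro y
    have h1 : P y = ∑ i ∈ Finset.range (d + 1), monomial i ((P y).coeff i) :=
      (P y).as_sum_range' (d + 1) (by rw [(hm y).2]; exact Nat.lt_succ_self d)
    conv_rhs => rw [h1]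
    simp only [PA, Polynomial.map_sum, map_monomial, evp_apply]
  have hf0 : PA.map ρ ≠ 0 := by
    intro h
    have h1 := (eventually_map_eq_zero PA h).self_of_nhds
    rw [hPA] at h1
    exact (hm p0).1.ne_zero h1
  obtain ⟨g, a, b, h, Δ, n, hΔ, h1, h2⟩ := elimination hf0
  obtain ⟨gA, rfl⟩ := hρm g
  obtain ⟨aA, rfl⟩ := hρm a
  obtain ⟨bA, rfl⟩ := hρm b
  obtain ⟨hA, rfl⟩ := hρm h
  obtain ⟨ΔA, rfl⟩ := hρs Δ
  have e1 := eventually_map_eq_zero (C ΔA * gA ^ n - PA * hA) (by
    rw [Polynomial.map_sub, Polynomial.map_mul, Polynomial.map_mul, Polynomial.map_pow, map_C,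
      h1, sub_self])
  have e2 := eventually_map_eq_zero (aA * gA + bA * derivative gA - C ΔA) (by
    rw [Polynomial.map_sub, Polynomial.map_add, Polynomial.map_mul, Polynomial.map_mul,
      ← derivative_map, map_C, h2, sub_self])
  refine ⟨fun y => gA.map (evp p0 y), (ΔA : Y → ℝ), gA.natDegree, fun i => ?_, fun y => ?_,
    ΔA.2, fun h => ?_, ?_⟩
  · have : (fun y => (gA.map (evp p0 y)).coeff i) = (gA.coeff i : Y → ℝ) := by
      funext y
      rw [coeff_map, evp_apply]
    rw [this]
    exact (gA.coeff i).2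
  · exact natDegree_map_le
  · apply hΔ
    exact Subtype.ext ((toGerm_eq_zero_iff ΔA).2 h)
  · filter_upwards [e1, e2] with y hy1 hy2 hΔy x hx
    rw [Polynomial.map_sub, Polynomial.map_mul, Polynomial.map_mul, Polynomial.map_pow, map_C,
      hPA, sub_eq_zero] at hy1
    rw [Polynomial.map_sub, Polynomial.map_add, Polynomial.map_mul, Polynomial.map_mul,
      ← derivative_map, map_C, sub_eq_zero] at hy2
    have k1 := congrArg (Polynomial.eval x) hy1
    have k2 := congrArg (Polynomial.eval x) hy2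
    simp only [eval_mul, eval_pow, eval_C, eval_add, evp_apply, hx, zero_mul] at k1 k2
    have k3 : (gA.map (evp p0 y)).eval x = 0 :=
      eq_zero_of_pow_eq_zero ((mul_eq_zero.1 k1).resolve_left hΔy)
    refine ⟨k3, fun k4 => hΔy ?_⟩
    rw [k3, k4, mul_zero, mul_zero, add_zero] at k2
    exact k2.symm

end Vale.Agent.P218CS
end

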