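import Mathlib

set_option linter.all false

section

/-! TASK W6: Weierstrass preparation for real-analytic functions.

The ring of power series in `x / ρ` acts on the space `A` of bounded sequences (coefficients of
`q`): `y ↦` (multiplication by `F(ρ ξ, y)`) is an analytic map `G` into the operators on `A`.
With the right shift `S` and the left shift `T`, `K y = T ^ b * G y` is invertible near `p0`,
`q y = (K y)⁻¹ 1` satisfies `q y * F(ρ ξ, y) = ξ ^ b + (polynomial of degree < b)`. -/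

open Filter Topology Polynomial

namespace Vale.Agent.P218CS

namespace WP

open scoped BoundedContinuousFunction NNReal ENNReal

/-- bounded sequences -/
def A : Type := ℕ →ᵇ ℝ

noncomputable instance : NormedAddCommGroup A := inferInstanceAs (NormedAddCommGroup (ℕ →ᵇ ℝ))

noncomputable instance : NormedSpace ℝ A := inferInstanceAs (NormedSpace ℝ (ℕ →ᵇ ℝ))

instance : CompleteSpace A := inferInstanceAs (CompleteSpace (ℕ →ᵇ ℝ))

instance : FunLike A ℕ ℝ := inferInstanceAs (FunLike (ℕ →ᵇ ℝ) ℕ ℝ)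

theorem A_ext {f g : A} (h : ∀ n, f n = g n) : f = g := DFunLike.ext _ _ h

theorem A_norm_coe (f : A) (n : ℕ) : ‖f n‖ ≤ ‖f‖ :=
  BoundedContinuousFunction.norm_coe_le_norm (f : ℕ →ᵇ ℝ) n

theorem A_norm_le {f : A} {C : ℝ} (hC : 0 ≤ C) (h : ∀ n, ‖f n‖ ≤ C) : ‖f‖ ≤ C :=
  (BoundedContinuousFunction.norm_le (f := (f : ℕ →ᵇ ℝ)) hC).2 h

@[simp] theorem A_add (f g : A) (n : ℕ) : (f + g) n = f n + g n := rfl

@[simp] theorem A_smul (c : ℝ) (f : A) (n : ℕ) : (c • f) n = c * f n := rfl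

/-- sequences from bounded functions -/
noncomputable def mkA (f : ℕ → ℝ) (C : ℝ) (h : ∀ n, ‖f n‖ ≤ C) : A :=
  BoundedContinuousFunction.ofNormedAddCommGroupDiscrete f C h

@[simp] theorem mkA_apply (f : ℕ → ℝ) (C : ℝ) (h : ∀ n, ‖f n‖ ≤ C) (n : ℕ) : mkA f C h n = f n :=
  rfl

/-- the coordinates as continuous functionals -/
noncomputable def cf (n : ℕ) : A →L[ℝ] ℝ :=
  LinearMap.mkContinuous
    { toFun := fun f => f n
      map_add' := fun _ _ => rfl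
      map_smul' := fun _ _ => rfl } 1 (fun f => by
    rw [one_mul]
    exact A_norm_coe f n)

/-- the right shift -/
noncomputable def S : A →L[ℝ] A :=
  LinearMap.mkContinuous
    { toFun := fun f => mkA (fun n : ℕ => if n = 0 then 0 else f (n - 1)) ‖f‖ (fun n => by
          split_ifs
          · simp
          · exact A_norm_coe f _)
      map_add' := fun f g => by
        refine A_ext fun n => ?_
        by_cases h : n = 0 <;> simp [h]
      map_smul' := fun c f => by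
        refine A_ext fun n => ?_
        by_cases h : n = 0 <;> simp [h] } 1 (fun f => by
    rw [one_mul]
    refine A_norm_le (norm_nonneg _) fun n => ?_
    by_cases h : n = 0
    · simp [h]
    · simp only [LinearMap.coe_mk, AddHom.coe_mk, mkA_apply, h, if_false]
      exact A_norm_coe f _)

@[simp] theorem S_zero (f : A) : S f 0 = 0 := by simp [S]

@[simp] theorem S_succ (f : A) (n : ℕ) : S f (n + 1) = f n := by simp [S]

theorem norm_S_le : ‖S‖ ≤ 1 := LinearMap.mkContinuous_norm_le _ zero_le_one _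

theorem norm_S_pow_le (n : ℕ) : ‖S ^ n‖ ≤ 1 := by
  induction n with
  | zero =>
    rw [pow_zero]
    exact ContinuousLinearMap.norm_id_le
  | succ n ih =>
    rw [pow_succ]
    calc ‖S ^ n * S‖ ≤ ‖S ^ n‖ * ‖S‖ := norm_mul_le _ _
      _ ≤ 1 * 1 := mul_le_mul ih norm_S_le (ContinuousLinearMap.opNorm_nonneg _) zero_le_one
      _ = 1 := one_mul 1

/-- the left shift -/
noncomputable def T : A →L[ℝ] A :=
  LinearMap.mkContinuous
    { toFun := fun f => mkA (fun n : ℕ => f (n + 1)) ‖f‖ (fun n => A_norm_coe f _)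
      map_add' := fun f g => by
        refine A_ext fun n => ?_
        simp
      map_smul' := fun c f => by
        refine A_ext fun n => ?_
        simp } 1 (fun f => by
    rw [one_mul]
    refine A_norm_le (norm_nonneg _) fun n => ?_
    simp only [LinearMap.coe_mk, AddHom.coe_mk, mkA_apply]
    exact A_norm_coe f _)

@[simp] theorem T_apply (f : A) (n : ℕ) : T f n = f (n + 1) := by simp [T]

theorem T_mul_S : T * S = 1 := by
  refine ContinuousLinearMap.ext fun f => A_ext fun n => ?_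
  simp

theorem T_pow_mul_S_pow (b : ℕ) : T ^ b * S ^ b = 1 := by
  induction b with
  | zero => simp
  | succ b ih =>
    rw [pow_succ, pow_succ']
    calc T ^ b * T * (S * S ^ b) = T ^ b * (T * S) * S ^ b := by simp only [mul_assoc]
      _ = 1 := by rw [T_mul_S, mul_one, ih]

theorem T_pow_apply (b : ℕ) (f : A) (n : ℕ) : (T ^ b) f n = f (n + b) := by
  induction b generalizing f n with
  | zero => simp
  | succ b ih =>
    rw [pow_succ]
    show (T ^ b) (T f) n = _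
    rw [ih, T_apply, add_assoc]

theorem S_pow_apply_lt (b : ℕ) (f : A) {n : ℕ} (h : n < b) : (S ^ b) f n = 0 := by
  induction b generalizing n with
  | zero => omega
  | succ b ih =>
    rw [pow_succ']
    show S ((S ^ b) f) n = 0
    rcases n with _ | n
    · simp
    · rw [S_succ]
      exact ih (by omega)

theorem summable_ev (f : A) {ξ : ℝ} (hξ : |ξ| ≤ 1 / 2) : Summable fun n : ℕ => f n * ξ ^ n := by
  refine Summable.of_norm_bounded (g := fun n : ℕ => ‖f‖ * (1 / 2 : ℝ) ^ n)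
    ((summable_geometric_of_lt_one (by norm_num) (by norm_num)).mul_left _) fun n => ?_
  rw [norm_mul, norm_pow]
  exact mul_le_mul (A_norm_coe f _) (pow_le_pow_left₀ (norm_nonneg _) hξ n)
    (by positivity) (norm_nonneg _)

/-- the sum of the series with the coefficients `f` at the point `ξ` -/
noncomputable def ev (ξ : ℝ) (f : A) : ℝ := ∑' n : ℕ, f n * ξ ^ n

theorem ev_add {ξ : ℝ} (hξ : |ξ| ≤ 1 / 2) (f g : A) : ev ξ (f + g) = ev ξ f + ev ξ g := by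
  unfold ev
  rw [← (summable_ev f hξ).tsum_add (summable_ev g hξ)]
  congr 1
  funext n
  rw [A_add, add_mul]

theorem ev_smul (ξ c : ℝ) (f : A) : ev ξ (c • f) = c * ev ξ f := by
  unfold ev
  rw [← tsum_mul_left]
  congr 1
  funext n
  rw [A_smul, mul_assoc]

theorem abs_ev_le {ξ : ℝ} (hξ : |ξ| ≤ 1 / 2) (f : A) : |ev ξ f| ≤ 2 * ‖f‖ := by
  have h1 : HasSum (fun n : ℕ => ‖f‖ * (1 / 2 : ℝ) ^ n) (‖f‖ * 2) :=
    hasSum_geometric_two.mul_left _
  have h2 := tsum_of_norm_bounded (f := fun n : ℕ => f n * ξ ^ n) h1 fun n => by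
    rw [norm_mul, norm_pow]
    exact mul_le_mul (A_norm_coe f _) (pow_le_pow_left₀ (norm_nonneg _) hξ n)
      (by positivity) (norm_nonneg _)
  rw [mul_comm] at h2
  exact h2

/-- evaluation as a continuous linear functional -/
noncomputable def evL {ξ : ℝ} (hξ : |ξ| ≤ 1 / 2) : A →L[ℝ] ℝ :=
  LinearMap.mkContinuous
    { toFun := ev ξ
      map_add' := ev_add hξ
      map_smul' := fun c f => ev_smul ξ c f } 2 fun f => abs_ev_le hξ f

theorem evL_apply {ξ : ℝ} (hξ : |ξ| ≤ 1 / 2) (f : A) : evL hξ f = ev ξ f := rfl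

theorem ev_T {ξ : ℝ} (hξ : |ξ| ≤ 1 / 2) (f : A) : ev ξ f = f 0 + ξ * ev ξ (T f) := by
  unfold ev
  rw [(summable_ev f hξ).tsum_eq_zero_add, pow_zero, mul_one, ← tsum_mul_left]
  congr 2
  funext n
  rw [T_apply, pow_succ]
  ring

theorem ev_S {ξ : ℝ} (hξ : |ξ| ≤ 1 / 2) (f : A) : ev ξ (S f) = ξ * ev ξ f := by
  rw [ev_T hξ, S_zero, zero_add]
  have h : T (S f) = f := by
    have := T_mul_S
    calc T (S f) = (T * S) f := rfl
      _ = f := by rw [T_mul_S]; rfl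
  rw [h]

theorem ev_S_pow {ξ : ℝ} (hξ : |ξ| ≤ 1 / 2) (n : ℕ) (f : A) :
    ev ξ ((S ^ n) f) = ξ ^ n * ev ξ f := by
  induction n with
  | zero => simp
  | succ n ih =>
    rw [pow_succ']
    show ev ξ (S ((S ^ n) f)) = _
    rw [ev_S hξ, ih, pow_succ']
    ring

theorem ev_inj {f : A} (h : ∀ ξ : ℝ, ξ ≠ 0 → |ξ| ≤ 1 / 2 → ev ξ f = 0) : f = 0 := by
  have key : ∀ n : ℕ, ∀ f : A, (∀ ξ : ℝ, ξ ≠ 0 → |ξ| ≤ 1 / 2 → ev ξ f = 0) → f n = 0 := by
    intro n
    induction n with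
    | zero =>
      intro f hf
      by_contra hne
      have h0 : 0 < |f 0| := abs_pos.2 hne
      have hN : 0 ≤ ‖T f‖ := norm_nonneg _
      obtain ⟨ξ, hξ0, hξ1, hξ2⟩ : ∃ ξ : ℝ, 0 < ξ ∧ ξ ≤ 1 / 2 ∧ ξ * (2 * ‖T f‖ + 1) < |f 0| := by
        refine ⟨min (1 / 2) (|f 0| / (2 * (2 * ‖T f‖ + 1))), by positivity, min_le_left _ _, ?_⟩
        have h1 : min (1 / 2) (|f 0| / (2 * (2 * ‖T f‖ + 1))) * (2 * ‖T f‖ + 1) ≤
            |f 0| / (2 * (2 * ‖T f‖ + 1)) * (2 * ‖T f‖ + 1) :=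
          mul_le_mul_of_nonneg_right (min_le_right _ _) (by positivity)
        have h2 : |f 0| / (2 * (2 * ‖T f‖ + 1)) * (2 * ‖T f‖ + 1) = |f 0| / 2 := by
          field_simp
        linarith only [h2, h1, h0]
      have hξa : |ξ| ≤ 1 / 2 := by rwa [abs_of_pos hξ0]
      have h1 := ev_T hξa f
      rw [hf ξ hξ0.ne' hξa] at h1
      have h2 : |f 0| = ξ * |ev ξ (T f)| := by
        have : f 0 = -(ξ * ev ξ (T f)) := by linarith only [h1]
        rw [this, abs_neg, abs_mul, abs_of_pos hξ0]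
      have h3 := abs_ev_le hξa (T f)
      have h4 : ξ * |ev ξ (T f)| ≤ ξ * (2 * ‖T f‖) := mul_le_mul_of_nonneg_left h3 hξ0.le
      linarith only [hξ0, hξ2, h2, h4]
    | succ n ih =>
      intro f hf
      rw [← T_apply]
      refine ih (T f) fun ξ hξ0 hξ => ?_
      have h0 : f 0 = 0 := by
        by_contra hne
        have h0 : 0 < |f 0| := abs_pos.2 hne
        have hN : 0 ≤ ‖T f‖ := norm_nonneg _
        obtain ⟨ξ, hξ0, hξ1, hξ2⟩ : ∃ ξ : ℝ, 0 < ξ ∧ ξ ≤ 1 / 2 ∧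
            ξ * (2 * ‖T f‖ + 1) < |f 0| := by
          refine ⟨min (1 / 2) (|f 0| / (2 * (2 * ‖T f‖ + 1))), by (clear * - hne; positivity), min_le_left _ _, ?_⟩
          have h1 : min (1 / 2) (|f 0| / (2 * (2 * ‖T f‖ + 1))) * (2 * ‖T f‖ + 1) ≤
              |f 0| / (2 * (2 * ‖T f‖ + 1)) * (2 * ‖T f‖ + 1) :=
            mul_le_mul_of_nonneg_right (min_le_right _ _) (by positivity)
          have h2 : |f 0| / (2 * (2 * ‖T f‖ + 1)) * (2 * ‖T f‖ + 1) = |f 0| / 2 := by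
            field_simp
          linarith only [h0, h1, h2]
        have hξa : |ξ| ≤ 1 / 2 := by rwa [abs_of_pos hξ0]
        have h1 := ev_T hξa f
        rw [hf ξ hξ0.ne' hξa] at h1
        have h2 : |f 0| = ξ * |ev ξ (T f)| := by
          have : f 0 = -(ξ * ev ξ (T f)) := by linarith only [h1]
          rw [this, abs_neg, abs_mul, abs_of_pos hξ0]
        have h3 := abs_ev_le hξa (T f)
        have h4 : ξ * |ev ξ (T f)| ≤ ξ * (2 * ‖T f‖) := mul_le_mul_of_nonneg_left h3 hξ0.le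
        linarith only [hξ0, hξ2, h2, h4]
      have h1 := ev_T hξ f
      rw [hf ξ hξ0 hξ, h0, zero_add] at h1
      rcases mul_eq_zero.1 h1.symm with h2 | h2
      · exact absurd h2 hξ0
      · exact h2
  exact A_ext fun n => key n f h

theorem op_ext {B C : A →L[ℝ] A}
    (h : ∀ ξ : ℝ, ξ ≠ 0 → |ξ| ≤ 1 / 2 → ∀ f, ev ξ (B f) = ev ξ (C f)) : B = C := by
  refine ContinuousLinearMap.ext fun f => ?_
  have h1 : B f - C f = 0 := by
    refine ev_inj fun ξ h0 hξ => ?_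
    have h2 := (evL hξ).map_sub (B f) (C f)
    rw [evL_apply, evL_apply, evL_apply] at h2
    rw [h2, h ξ h0 hξ, sub_self]
  exact sub_eq_zero.1 h1

section construction

variable {Y : Type} [NormedAddCommGroup Y] [NormedSpace ℝ Y]

/-- the part of degree `k` in `y` and `l` in `x`, with `x = ρ S` -/
noncomputable def Qt (p : FormalMultilinearSeries ℝ (ℝ × Y) ℝ) (ρ : ℝ≥0) (k l : ℕ) :
    Y [×k]→L[ℝ] (A →L[ℝ] A) :=
  ((p.changeOriginSeries k l fun _ => ((1 : ℝ), (0 : Y))).compContinuousLinearMap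
    fun _ => ContinuousLinearMap.inr ℝ ℝ Y).smulRight ((ρ : ℝ) ^ l • S ^ l)

theorem norm_inr_le : ‖ContinuousLinearMap.inr ℝ ℝ Y‖ ≤ 1 := by
  refine ContinuousLinearMap.opNorm_le_bound _ zero_le_one fun y => ?_
  simp

theorem nnnorm_Qt_le (p : FormalMultilinearSeries ℝ (ℝ × Y) ℝ) (ρ : ℝ≥0) (k l : ℕ) :
    ‖Qt p ρ k l‖₊ ≤ ∑' _ : { s : Finset (Fin (k + l)) // s.card = l }, ‖p (k + l)‖₊ * ρ ^ l := by
  have h1 := p.nnnorm_changeOriginSeries_apply_le_tsum k l ((1 : ℝ), (0 : Y))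
  have h2 : ‖((1 : ℝ), (0 : Y))‖₊ = 1 := by
    simp [Prod.nnnorm_def]
  rw [h2, one_pow] at h1
  simp only [mul_one] at h1
  have h3 : ‖Qt p ρ k l‖ ≤ ‖p.changeOriginSeries k l fun _ => ((1 : ℝ), (0 : Y))‖ * (ρ : ℝ) ^ l := by
    unfold Qt
    rw [ContinuousMultilinearMap.norm_smulRight]
    refine mul_le_mul ?_ ?_ (norm_nonneg _) (norm_nonneg _)
    · refine (ContinuousMultilinearMap.norm_compContinuousLinearMap_le _ _).trans ?_
      refine mul_le_of_le_one_right (norm_nonneg _) ?_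
      exact Finset.prod_le_one (fun _ _ => ContinuousLinearMap.opNorm_nonneg _)
        fun _ _ => norm_inr_le
    · rw [norm_smul, norm_pow, Real.norm_eq_abs, NNReal.abs_eq]
      exact mul_le_of_le_one_right (by positivity) (norm_S_pow_le l)
  have h4 : ‖Qt p ρ k l‖₊ ≤ ‖p.changeOriginSeries k l fun _ => ((1 : ℝ), (0 : Y))‖₊ * ρ ^ l := by
    exact_mod_cast h3
  refine h4.trans ?_
  rw [NNReal.tsum_mul_right]
  exact mul_le_mul_of_nonneg_right h1 (by positivity)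

/-- the power series of the operator valued function -/
noncomputable def Q (p : FormalMultilinearSeries ℝ (ℝ × Y) ℝ) (ρ : ℝ≥0) :
    FormalMultilinearSeries ℝ Y (A →L[ℝ] A) := fun k => ∑' l, Qt p ρ k l

variable {p : FormalMultilinearSeries ℝ (ℝ × Y) ℝ} {ρ : ℝ≥0}

theorem hasSum_bound (hρ : (ρ : ℝ≥0∞) < p.radius) (k : ℕ) :
    HasSum (fun l : ℕ => ∑' _ : { s : Finset (Fin (k + l)) // s.card = l },
      ‖p (k + l)‖₊ * ρ ^ l)
      (∑' s : Σ l : ℕ, { s : Finset (Fin (k + l)) // s.card = l }, ‖p (k + s.1)‖₊ * ρ ^ s.1) := by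
  have h := p.changeOriginSeries_summable_aux₂ hρ k
  refine HasSum.sigma h.hasSum fun l => ?_
  exact ((NNReal.summable_sigma.1 h).1 l).hasSum

theorem complete_mm (k : ℕ) : CompleteSpace (Y [×k]→L[ℝ] (A →L[ℝ] A)) := inferInstance

theorem summable_Qt (hρ : (ρ : ℝ≥0∞) < p.radius) (k : ℕ) : Summable (Qt p ρ k) := by
  have h1 : Summable fun l => ‖Qt p ρ k l‖₊ :=
    NNReal.summable_of_le (fun l => nnnorm_Qt_le p ρ k l) (hasSum_bound hρ k).summable
  have := complete_mm (Y := Y) k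
  exact h1.of_nnnorm

theorem nnnorm_Q_le (hρ : (ρ : ℝ≥0∞) < p.radius) (k : ℕ) :
    ‖Q p ρ k‖₊ ≤
      ∑' s : Σ l : ℕ, { s : Finset (Fin (k + l)) // s.card = l }, ‖p (k + s.1)‖₊ * ρ ^ s.1 :=
  tsum_of_nnnorm_bounded (hasSum_bound hρ k) fun l => nnnorm_Qt_le p ρ k l

theorem radius_Q {r : ℝ≥0} (hr : (ρ + r : ℝ≥0∞) < p.radius) : (r : ℝ≥0∞) ≤ (Q p ρ).radius := by
  have hρ : (ρ : ℝ≥0∞) < p.radius := (le_add_right le_rfl).trans_lt hr
  apply FormalMultilinearSeries.le_radius_of_summable_nnnorm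
  have this (k : ℕ) :
      ‖Q p ρ k‖₊ * r ^ k ≤
        (∑' s : Σ l : ℕ, { s : Finset (Fin (k + l)) // s.card = l }, ‖p (k + s.1)‖₊ * ρ ^ s.1) *
          r ^ k := by
    gcongr
    exact nnnorm_Q_le hρ k
  refine NNReal.summable_of_le this ?_
  simpa only [← NNReal.tsum_mul_right] using
    (NNReal.summable_sigma.1 (p.changeOriginSeries_summable_aux₁ hr)).2

theorem apply_Qt {ξ c : ℝ} (φ : (A →L[ℝ] A) →L[ℝ] ℝ) (hφ : ∀ l, φ (S ^ l) = ξ ^ l * c)
    (k l : ℕ) (h : Y) : φ (Qt p ρ k l fun _ => h) =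
      ((p.changeOriginSeries k l fun _ => ((ρ * ξ : ℝ), (0 : Y))) fun _ => ((0 : ℝ), h)) * c := by
  unfold Qt
  rw [ContinuousMultilinearMap.smulRight_apply, map_smul, map_smul, hφ]
  have h6 : (fun _ : Fin l => (((ρ * ξ : ℝ), (0 : Y)) : ℝ × Y)) =
      fun _ => (ρ * ξ : ℝ) • ((1 : ℝ), (0 : Y)) := by
    funext _
    simp
  rw [h6, ContinuousMultilinearMap.map_smul_univ, Finset.prod_const, Finset.card_univ,
    Fintype.card_fin]
  simp only [ContinuousMultilinearMap.compContinuousLinearMap_apply,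
    ContinuousLinearMap.inr_apply, _root_.smul_apply, smul_eq_mul, mul_pow]
  ring

theorem apply_Q (hρ : (ρ : ℝ≥0∞) < p.radius) {ξ c : ℝ} (hξ : |ξ| ≤ 1 / 2)
    (φ : (A →L[ℝ] A) →L[ℝ] ℝ) (hφ : ∀ l, φ (S ^ l) = ξ ^ l * c) (k : ℕ) (h : Y) :
    φ (Q p ρ k fun _ => h) = (p.changeOrigin ((ρ * ξ : ℝ), (0 : Y)) k fun _ => ((0 : ℝ), h)) * c := by
  have h1 : HasSum (fun l => φ (Qt p ρ k l fun _ => h)) (φ (Q p ρ k fun _ => h)) := by
    have h2 := ContinuousMultilinearMap.hasSum_eval (summable_Qt hρ k).hasSum (fun _ => h)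
    exact h2.mapL φ
  have hx : (((ρ * ξ : ℝ), (0 : Y)) : ℝ × Y) ∈ Metric.eball (0 : ℝ × Y) p.radius := by
    rw [mem_eball_zero_iff]
    refine lt_of_le_of_lt ?_ hρ
    rw [← ofReal_norm, ← ENNReal.ofReal_coe_nnreal]
    apply ENNReal.ofReal_le_ofReal
    rw [Prod.norm_mk, norm_zero, max_eq_left (norm_nonneg _), Real.norm_eq_abs, abs_mul,
      NNReal.abs_eq]
    exact mul_le_of_le_one_right ρ.2 (by linarith only [hξ])
  have h3 : HasSum (fun l => (p.changeOriginSeries k l fun _ => ((ρ * ξ : ℝ), (0 : Y)))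
      fun _ => ((0 : ℝ), h)) (p.changeOrigin ((ρ * ξ : ℝ), (0 : Y)) k fun _ => ((0 : ℝ), h)) := by
    have h4 := (p.hasFPowerSeriesOnBall_changeOrigin k
      (lt_of_le_of_lt bot_le hρ)).hasSum hx
    rw [zero_add] at h4
    exact ContinuousMultilinearMap.hasSum_eval h4 _
  have h5 := h3.mul_right c
  have h7 : (fun l => φ (Qt p ρ k l fun _ => h)) = fun l =>
      ((p.changeOriginSeries k l fun _ => ((ρ * ξ : ℝ), (0 : Y))) fun _ => ((0 : ℝ), h)) * c := by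
    funext l
    exact apply_Qt φ hφ k l h
  rw [h7] at h1
  exact h1.unique h5

/-- Multiplication by an analytic function, as an analytic function with values in operators. -/
theorem exists_G {F : ℝ × Y → ℝ} {p0 : Y} (hF : AnalyticAt ℝ F (0, p0)) :
    ∃ ρ0 : ℝ≥0, 0 < ρ0 ∧ ∀ ρ : ℝ≥0, ρ ≤ ρ0 → ∃ G : Y → (A →L[ℝ] A),
      AnalyticAt ℝ G p0 ∧ ∀ᶠ y in 𝓝 p0, ∀ ξ : ℝ, |ξ| ≤ 1 / 2 → ∀ f : A,
        ev ξ (G y f) = F (ρ * ξ, y) * ev ξ f := by
  obtain ⟨p, R, hp⟩ := hF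
  obtain ⟨r0, hr0, hr0R⟩ := ENNReal.lt_iff_exists_nnreal_btwn.1 hp.r_pos
  have hr0' : 0 < r0 := by exact_mod_cast hr0
  refine ⟨r0 / 2, by positivity, fun ρ hρ0 => ?_⟩
  have hsum : ((ρ : ℝ≥0∞) + ((r0 / 2 : ℝ≥0) : ℝ≥0∞)) < R := by
    refine lt_of_le_of_lt ?_ hr0R
    rw [← ENNReal.coe_add, ENNReal.coe_le_coe]
    calc ρ + r0 / 2 ≤ r0 / 2 + r0 / 2 := by gcongr
      _ = r0 := add_halves r0
  have hsum' : ((ρ : ℝ≥0∞) + ((r0 / 2 : ℝ≥0) : ℝ≥0∞)) < p.radius := hsum.trans_le hp.r_le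
  have hρ : (ρ : ℝ≥0∞) < p.radius := (le_add_right le_rfl).trans_lt hsum'
  have hrad := radius_Q hsum'
  have hpos : 0 < (Q p ρ).radius :=
    lt_of_lt_of_le (ENNReal.coe_pos.2 (half_pos hr0')) hrad
  have hQ := (Q p ρ).hasFPowerSeriesOnBall hpos
  refine ⟨fun y => (Q p ρ).sum (y - p0), ?_, ?_⟩
  · have h1 := hQ.comp_sub p0
    rw [zero_add] at h1
    exact h1.analyticAt
  · have hball : Metric.ball p0 ((r0 / 2 : ℝ≥0) : ℝ) ∈ 𝓝 p0 :=
      Metric.ball_mem_nhds _ (NNReal.coe_pos.2 (half_pos hr0'))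
    filter_upwards [hball] with y hy ξ hξ f
    have hh : ‖y - p0‖ₑ < ((r0 / 2 : ℝ≥0) : ℝ≥0∞) := by
      rw [Metric.mem_ball, dist_eq_norm] at hy
      rw [← ofReal_norm, ← ENNReal.ofReal_coe_nnreal]
      exact (ENNReal.ofReal_lt_ofReal_iff (NNReal.coe_pos.2 (half_pos hr0'))).2 hy
    have h1 : HasSum (fun k => Q p ρ k fun _ => y - p0) ((Q p ρ).sum (y - p0)) := by
      have := hQ.hasSum (y := y - p0) (by
        rw [mem_eball_zero_iff]
        exact hh.trans_le hrad)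
      rwa [zero_add] at this
    have h2 := h1.mapL ((evL hξ) ∘L (ContinuousLinearMap.apply ℝ A f))
    have h3 : ∀ k, ((evL hξ) ∘L (ContinuousLinearMap.apply ℝ A f)) (Q p ρ k fun _ => y - p0) =
        (p.changeOrigin ((ρ * ξ : ℝ), (0 : Y)) k fun _ => ((0 : ℝ), y - p0)) * ev ξ f := by
      intro k
      refine apply_Q hρ hξ _ (fun l => ?_) k _
      exact ev_S_pow hξ l f
    simp only [h3] at h2
    have hv : ‖(((ρ * ξ : ℝ), (0 : Y)) : ℝ × Y)‖ₑ ≤ (ρ : ℝ≥0∞) := by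
      rw [← ofReal_norm, ← ENNReal.ofReal_coe_nnreal]
      apply ENNReal.ofReal_le_ofReal
      rw [Prod.norm_mk, norm_zero, max_eq_left (norm_nonneg _), Real.norm_eq_abs, abs_mul,
        NNReal.abs_eq]
      exact mul_le_of_le_one_right ρ.2 (by linarith only [hξ])
    have hv' : ‖(((ρ * ξ : ℝ), (0 : Y)) : ℝ × Y)‖ₑ < R :=
      lt_of_le_of_lt hv ((le_add_right le_rfl).trans_lt hsum)
    have h4 := (hp.changeOrigin hv').hasSum (y := ((0 : ℝ), y - p0)) (by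
      rw [mem_eball_zero_iff, lt_tsub_iff_right]
      refine lt_of_le_of_lt ?_ hsum
      rw [add_comm]
      refine add_le_add hv ?_
      refine le_trans (le_of_eq ?_) hh.le
      rw [← ofReal_norm, ← ofReal_norm, Prod.norm_mk, norm_zero,
        max_eq_right (norm_nonneg _)])
    have h5 : ((0 : ℝ), p0) + ((ρ * ξ : ℝ), (0 : Y)) + ((0 : ℝ), y - p0) = ((ρ * ξ : ℝ), y) := by
      simp
    rw [h5] at h4
    exact h2.unique (h4.mul_right (ev ξ f))

end construction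

/-- the constant `1` -/
noncomputable def e0 : A := mkA (fun n => if n = 0 then 1 else 0) 1 fun n => by
  split_ifs <;> simp

theorem e0_zero : e0 0 = 1 := by simp [e0]

theorem e0_succ (n : ℕ) : e0 (n + 1) = 0 := by simp [e0]

theorem ev_e0 {ξ : ℝ} : ev ξ e0 = 1 := by
  unfold ev
  rw [tsum_eq_single 0]
  · rw [e0_zero, pow_zero, mul_one]
  · intro n hn
    obtain ⟨m, rfl⟩ := Nat.exists_eq_succ_of_ne_zero hn
    rw [Nat.succ_eq_add_one, e0_succ, zero_mul]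

/-- the polynomial -/
noncomputable def PP (b : ℕ) (ρ : ℝ) (w : A) : ℝ[X] :=
  X ^ b + ∑ n ∈ Finset.range b, C (w n * ρ ^ (b - n)) * X ^ n

theorem PP_coeff (b : ℕ) (ρ : ℝ) (w : A) (i : ℕ) :
    (PP b ρ w).coeff i = (if i = b then 1 else 0) + if i < b then w i * ρ ^ (b - i) else 0 := by
  unfold PP
  rw [coeff_add, coeff_X_pow, finsetSum_coeff]
  congr 1
  simp only [coeff_C_mul_X_pow]
  rw [Finset.sum_ite_eq]
  simp only [Finset.mem_range]

theorem PP_degree_lt (b : ℕ) (ρ : ℝ) (w : A) :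
    (∑ n ∈ Finset.range b, C (w n * ρ ^ (b - n)) * X ^ n).degree < (b : WithBot ℕ) := by
  rw [degree_lt_iff_coeff_zero]
  intro m hm
  rw [finsetSum_coeff]
  simp only [coeff_C_mul_X_pow]
  rw [Finset.sum_ite_eq, if_neg]
  rw [Finset.mem_range]
  omega

theorem PP_monic (b : ℕ) (ρ : ℝ) (w : A) : (PP b ρ w).Monic :=
  monic_X_pow_add (PP_degree_lt b ρ w)

theorem PP_natDegree (b : ℕ) (ρ : ℝ) (w : A) : (PP b ρ w).natDegree = b := by
  apply natDegree_eq_of_degree_eq_some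
  unfold PP
  rw [degree_add_eq_left_of_degree_lt, degree_X_pow]
  rw [degree_X_pow]
  exact PP_degree_lt b ρ w

theorem PP_eval {b : ℕ} {ρ : ℝ} {w : A} (hw : ∀ n, w (n + b) = e0 n) (ξ : ℝ) :
    (PP b ρ w).eval (ρ * ξ) = ρ ^ b * ev ξ w := by
  unfold PP ev
  rw [tsum_eq_sum (s := Finset.range (b + 1))]
  · rw [Finset.sum_range_succ, eval_add, eval_pow, eval_X, eval_finsetSum, mul_add,
      Finset.mul_sum]
    have h1 := hw 0
    rw [zero_add, e0_zero] at h1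
    rw [h1, one_mul, mul_pow, add_comm]
    congr 1
    refine Finset.sum_congr rfl fun n hn => ?_
    rw [Finset.mem_range] at hn
    rw [eval_mul, eval_C, eval_pow, eval_X, mul_pow]
    have h2 : ρ ^ b = ρ ^ (b - n) * ρ ^ n := by
      rw [← pow_add]
      congr 1
      omega
    rw [h2]
    ring
  · intro n hn
    rw [Finset.mem_range, not_lt] at hn
    obtain ⟨m, rfl⟩ := Nat.exists_eq_add_of_le hn
    have h1 := hw (m + 1)
    rw [e0_succ] at h1
    rw [show b + 1 + m = m + 1 + b by omega, h1, zero_mul]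

end WP

variable {Y : Type} [NormedAddCommGroup Y] [NormedSpace ℝ Y] [FiniteDimensional ℝ Y]

open WP in
/-- Weierstrass preparation theorem for real-analytic functions. -/
theorem weierstrass {F : ℝ × Y → ℝ} {p0 : Y} (hF : AnalyticAt ℝ F (0, p0)) {b : ℕ} {u : ℝ → ℝ}
    (hu : AnalyticAt ℝ u 0) (hu0 : u 0 ≠ 0) (hFu : ∀ᶠ x in 𝓝 (0 : ℝ), F (x, p0) = x ^ b * u x) :
    ∃ P : Y → ℝ[X], (∀ y, (P y).Monic ∧ (P y).natDegree = b) ∧
      (∀ i, AnalyticAt ℝ (fun y => (P y).coeff i) p0) ∧ P p0 = X ^ b ∧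
      ∃ r > 0, ∀ᶠ y in 𝓝 p0, ∀ x : ℝ, |x| ≤ r → (F (x, y) = 0 ↔ (P y).eval x = 0) := by
  have hU : AnalyticAt ℝ (fun z : ℝ × Y => u z.1) (0, p0) :=
    AnalyticAt.comp_of_eq hu analyticAt_fst rfl
  have hV : AnalyticAt ℝ (fun z : ℝ × Y => (u z.1)⁻¹) (0, p0) := hU.inv hu0
  obtain ⟨ρ1, hρ1, H1⟩ := exists_G hF
  obtain ⟨ρ2, hρ2, H2⟩ := exists_G hU
  obtain ⟨ρ3, hρ3, H3⟩ := exists_G hV
  have hune : ∀ᶠ x in 𝓝 (0 : ℝ), u x ≠ 0 := hu.continuousAt.eventually_ne hu0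
  obtain ⟨δ, hδ, hδ'⟩ := Metric.eventually_nhds_iff.1 (hFu.and hune)
  obtain ⟨ρ, hρpos, hρle1, hρle2, hρle3, hρδ⟩ : ∃ ρ : NNReal, 0 < ρ ∧ ρ ≤ ρ1 ∧ ρ ≤ ρ2 ∧ ρ ≤ ρ3 ∧
      (ρ : ℝ) ≤ δ := by
    refine ⟨min (min ρ1 ρ2) (min ρ3 ⟨δ, hδ.le⟩), ?_, ?_, ?_, ?_, ?_⟩
    · exact lt_min (lt_min hρ1 hρ2) (lt_min hρ3 hδ)
    · exact (min_le_left _ _).trans (min_le_left _ _)
    · exact (min_le_left _ _).trans (min_le_right _ _)
    · exact (min_le_right _ _).trans (min_le_left _ _)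
    · exact (NNReal.coe_le_coe.2 ((min_le_right _ _).trans (min_le_right _ _)))
  have hρ0 : (0 : ℝ) < ρ := hρpos
  obtain ⟨G, hGa, hG⟩ := H1 ρ hρle1
  obtain ⟨GU, -, hGU⟩ := H2 ρ hρle2
  obtain ⟨GV, -, hGV⟩ := H3 ρ hρle3
  have hG0 := hG.self_of_nhds
  have hU0 := hGU.self_of_nhds
  have hV0 := hGV.self_of_nhds
  obtain ⟨U, hUdef⟩ : ∃ U, U = GU p0 := ⟨_, rfl⟩
  obtain ⟨V, hVdef⟩ : ∃ V, V = GV p0 := ⟨_, rfl⟩
  rw [← hUdef] at hU0
  rw [← hVdef] at hV0
  have hsmall : ∀ ξ : ℝ, |ξ| ≤ 1 / 2 →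
      F (ρ * ξ, p0) = (ρ * ξ) ^ b * u (ρ * ξ) ∧ u (ρ * ξ) ≠ 0 := by
    intro ξ hξ
    refine hδ' ?_
    rw [dist_zero_right, Real.norm_eq_abs, abs_mul, abs_of_pos hρ0]
    nlinarith only [hδ, hρδ, hξ, abs_nonneg ξ]
  have hUV : U * V = 1 := by
    refine op_ext fun ξ _ hξ f => ?_
    show ev ξ (U (V f)) = ev ξ f
    rw [hU0 ξ hξ, hV0 ξ hξ, ← mul_assoc, mul_inv_cancel₀ (hsmall ξ hξ).2, one_mul]
  have hVU : V * U = 1 := by
    refine op_ext fun ξ _ hξ f => ?_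
    show ev ξ (V (U f)) = ev ξ f
    rw [hV0 ξ hξ, hU0 ξ hξ, ← mul_assoc, inv_mul_cancel₀ (hsmall ξ hξ).2, one_mul]
  have hGp : G p0 = (ρ : ℝ) ^ b • (S ^ b * U) := by
    refine op_ext fun ξ _ hξ f => ?_
    have h1 : ((ρ : ℝ) ^ b • (S ^ b * U)) f = (ρ : ℝ) ^ b • (S ^ b) (U f) := rfl
    rw [hG0 ξ hξ, h1, ev_smul, ev_S_pow hξ, hU0 ξ hξ, (hsmall ξ hξ).1]
    ring
  obtain ⟨K, hK⟩ : ∃ K : Y → (A →L[ℝ] A), K = fun y => T ^ b * G y := ⟨_, rfl⟩
  have hKa : AnalyticAt ℝ K p0 := by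
    rw [hK]
    exact analyticAt_const.mul hGa
  have hKp : K p0 = (ρ : ℝ) ^ b • U := by
    rw [hK]
    simp only
    rw [hGp, mul_smul_comm, ← mul_assoc, T_pow_mul_S_pow, one_mul]
  have hρb : (ρ : ℝ) ^ b ≠ 0 := pow_ne_zero _ hρ0.ne'
  let κ : (A →L[ℝ] A)ˣ := ⟨K p0, ((ρ : ℝ) ^ b)⁻¹ • V, by
    rw [hKp, smul_mul_smul_comm, hUV, mul_inv_cancel₀ hρb, one_smul], by
    rw [hKp, smul_mul_smul_comm, hVU, inv_mul_cancel₀ hρb, one_smul]⟩
  have hinv : AnalyticAt ℝ (fun y => Ring.inverse (K y)) p0 :=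
    AnalyticAt.comp_of_eq (analyticAt_inverse κ) hKa rfl
  obtain ⟨q, hq⟩ : ∃ q : Y → A, q = fun y => Ring.inverse (K y) e0 := ⟨_, rfl⟩
  obtain ⟨w, hw⟩ : ∃ w : Y → A, w = fun y => G y (q y) := ⟨_, rfl⟩
  have hqc : ContinuousAt q p0 := by
    rw [hq]
    exact ((ContinuousLinearMap.apply ℝ A e0).continuous.continuousAt).comp hinv.continuousAt
  have hwa : ∀ n, AnalyticAt ℝ (fun y => w y n) p0 := by
    intro n
    have h1 : AnalyticAt ℝ (fun y => G y * Ring.inverse (K y)) p0 := hGa.mul hinv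
    have h2 := ((cf n) ∘L (ContinuousLinearMap.apply ℝ A e0)).analyticAt (G p0 *
      Ring.inverse (K p0))
    have h3 := AnalyticAt.comp_of_eq h2 h1 rfl
    rw [hw, hq]
    exact h3
  have hunit : ∀ᶠ y in 𝓝 p0, IsUnit (K y) :=
    hKa.continuousAt.eventually (Units.isOpen.mem_nhds ⟨κ, rfl⟩)
  have hwb : ∀ y, IsUnit (K y) → ∀ n, w y (n + b) = e0 n := by
    intro y hy n
    rw [← T_pow_apply]
    have h1 : (T ^ b) (w y) = (K y * Ring.inverse (K y)) e0 := by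
      rw [hw, hq, hK]
      rfl
    rw [h1, Ring.mul_inverse_cancel _ hy]
    rfl
  have hgw : ∀ᶠ y in 𝓝 p0, ∀ ξ : ℝ, |ξ| ≤ 1 / 2 → ev ξ (w y) = F (ρ * ξ, y) * ev ξ (q y) := by
    filter_upwards [hG] with y hy ξ hξ
    rw [hw]
    exact hy ξ hξ (q y)
  -- lower bound for `ev ξ (q p0)`
  obtain ⟨c, hc⟩ : ∃ c : ℝ, c = 1 / ((ρ : ℝ) ^ b * (2 * ‖U e0‖ + 1)) := ⟨_, rfl⟩
  have hcpos : 0 < c := by
    rw [hc]
    (clear * - hρpos; positivity)
  have hlow : ∀ ξ : ℝ, |ξ| ≤ 1 / 2 → c ≤ |ev ξ (q p0)| := by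
    intro ξ hξ
    have h1 : ev ξ (K p0 (q p0)) = 1 := by
      have h2 : K p0 (q p0) = (K p0 * Ring.inverse (K p0)) e0 := by
        rw [hq]
        rfl
      rw [h2, Ring.mul_inverse_cancel _ ⟨κ, rfl⟩]
      exact ev_e0
    have h3 : ev ξ (K p0 (q p0)) = (ρ : ℝ) ^ b * (u (ρ * ξ) * ev ξ (q p0)) := by
      have h4 : K p0 (q p0) = (ρ : ℝ) ^ b • U (q p0) := by
        rw [hKp]
        rfl
      rw [h4, ev_smul, hU0 ξ hξ]
    have h5 : |u (ρ * ξ)| ≤ 2 * ‖U e0‖ + 1 := by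
      have h6 := hU0 ξ hξ e0
      rw [ev_e0, mul_one] at h6
      rw [← h6]
      linarith only [hξ, abs_ev_le hξ (U e0)]
    rw [h1] at h3
    have h7 : 1 = (ρ : ℝ) ^ b * (|u (ρ * ξ)| * |ev ξ (q p0)|) := by
      have h8 := congrArg abs h3
      rwa [abs_one, abs_mul, abs_mul, abs_of_pos (pow_pos hρ0 b)] at h8
    rw [hc, div_le_iff₀ (by (clear * - hρpos; positivity))]
    calc (1 : ℝ) = (ρ : ℝ) ^ b * (|u (ρ * ξ)| * |ev ξ (q p0)|) := h7
      _ ≤ (ρ : ℝ) ^ b * ((2 * ‖U e0‖ + 1) * |ev ξ (q p0)|) := by (clear * - hρpos h5; gcongr)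
      _ = |ev ξ (q p0)| * ((ρ : ℝ) ^ b * (2 * ‖U e0‖ + 1)) := by ring
  have hnear : ∀ᶠ y in 𝓝 p0, ‖q y - q p0‖ < c / 2 := by
    have := Metric.continuousAt_iff.1 hqc (c / 2) (by (clear * - hcpos; positivity))
    obtain ⟨η, hη, h⟩ := this
    filter_upwards [Metric.ball_mem_nhds p0 hη] with y hy
    rw [← dist_eq_norm]
    exact h hy
  refine ⟨fun y => PP b ρ (w y), fun y => ⟨PP_monic _ _ _, PP_natDegree _ _ _⟩, ?_, ?_,
    (ρ : ℝ) / 2, by (clear * - hρpos; positivity), ?_⟩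
  · intro i
    simp only [PP_coeff]
    by_cases h : i < b
    · simp only [h, if_true]
      exact analyticAt_const.add ((hwa i).mul analyticAt_const)
    · simp only [h, if_false]
      exact analyticAt_const
  · show PP b ρ (w p0) = X ^ b
    unfold PP
    rw [Finset.sum_eq_zero, add_zero]
    intro n hn
    rw [Finset.mem_range] at hn
    have h1 : w p0 n = 0 := by
      have h2 : w p0 = (ρ : ℝ) ^ b • (S ^ b) (U (q p0)) := by
        rw [hw]
        simp only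
        rw [hGp]
        rfl
      rw [h2, A_smul, S_pow_apply_lt b _ hn, mul_zero]
    rw [h1, zero_mul, C_0, zero_mul]
  · filter_upwards [hunit, hgw, hnear] with y hy1 hy2 hy3 x hx
    obtain ⟨ξ, hξdef⟩ : ∃ ξ : ℝ, ξ = x / ρ := ⟨_, rfl⟩
    have hxξ : x = ρ * ξ := by
      rw [hξdef]
      field_simp
    have hξ : |ξ| ≤ 1 / 2 := by
      rw [hξdef, abs_div, abs_of_pos hρ0, div_le_iff₀ hρ0]
      linarith only [hx]
    have h1 := hy2 ξ hξ
    have h2 := PP_eval (ρ := (ρ : ℝ)) (hwb y hy1) ξ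
    have h3 : ev ξ (q y) ≠ 0 := by
      intro h4
      have h5 := (evL hξ).map_sub (q y) (q p0)
      rw [evL_apply, evL_apply, evL_apply, h4, zero_sub] at h5
      have h6 := abs_ev_le hξ (q y - q p0)
      rw [h5, abs_neg] at h6
      have h7 := hlow ξ hξ
      linarith only [hy3, h6, h7]
    rw [hxξ, h2, h1]
    constructor
    · intro h4
      rw [h4, zero_mul, mul_zero]
    · intro h4
      rcases mul_eq_zero.1 h4 with h5 | h5
      · exact absurd h5 hρb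
      · rcases mul_eq_zero.1 h5 with h6 | h6
        · exact h6
        · exact absurd h6 h3

end Vale.Agent.P218CS
end

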