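import Mathlib

set_option linter.all false

section

/-! TASK W7. -/

open Filter Topology Polynomial

namespace Vale.Agent.P218CS

variable {Y : Type} [NormedAddCommGroup Y] [NormedSpace ℝ Y]

namespace PF

/-- A preconnected set which meets an open set but not its frontier lies in it. -/
theorem subset_of_no_frontier {E : Type} [TopologicalSpace E] {Ω S : Set E} (hΩ : IsOpen Ω)
    (hS : IsPreconnected S) (hne : (S ∩ Ω).Nonempty) (hfr : ∀ q ∈ S, q ∉ frontier Ω) : S ⊆ Ω := by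
  refine hS.subset_of_closure_inter_subset hΩ hne ?_
  rintro q ⟨hq, hqS⟩
  by_contra hqΩ
  exact hfr q hqS (by rw [hΩ.frontier_eq]; exact ⟨hq, hqΩ⟩)

/-- Vertical and horizontal moves. -/
theorem exists_above {Ω : Set (ℝ × Y)} (hΩ : IsOpen Ω) {G : Y → ℝ → ℝ} {y0 : Y} {ρ a b : ℝ}
    (hmono : ∀ y ∈ Metric.ball y0 ρ, StrictMonoOn (G y) (Set.Ioo a b))
    {m : ℝ} (hm : m ∈ Set.Ioo a b)
    (hplus : ∀ y ∈ Metric.ball y0 ρ, 0 < G y m)
    (hfr : ∀ y ∈ Metric.ball y0 ρ, ∀ x ∈ Set.Ioo a b, (x, y) ∈ frontier Ω → G y x = 0)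
    {y' : Y} (hy' : y' ∈ Metric.ball y0 ρ) {x' : ℝ} (hx' : x' ∈ Set.Ioo a b)
    (hG : 0 < G y' x') (hmem : (x', y') ∈ Ω) : ∃ x ∈ Set.Ioo a b, (x, y0) ∈ Ω := by
  have hρ : 0 < ρ := Metric.pos_of_mem_ball hy'
  set c := max x' m with hc
  have hc1 : c ∈ Set.Ioo a b := ⟨lt_of_lt_of_le hx'.1 (le_max_left _ _), max_lt hx'.2 hm.2⟩
  have hS1 : ∀ t ∈ Set.Icc x' c, t ∈ Set.Ioo a b ∧ 0 < G y' t := by
    intro t ht
    have ht' : t ∈ Set.Ioo a b := ⟨lt_of_lt_of_le hx'.1 ht.1, lt_of_le_of_lt ht.2 hc1.2⟩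
    exact ⟨ht', lt_of_lt_of_le hG ((hmono y' hy').monotoneOn hx' ht' ht.1)⟩
  have h1 : (fun t : ℝ => (t, y')) '' Set.Icc x' c ⊆ Ω := by
    refine subset_of_no_frontier hΩ (isPreconnected_Icc.image _ (by fun_prop))
      ⟨(x', y'), ⟨x', ⟨le_rfl, le_max_left _ _⟩, rfl⟩, hmem⟩ ?_
    rintro _ ⟨t, ht, rfl⟩ hq
    exact (hS1 t ht).2.ne' (hfr y' hy' t (hS1 t ht).1 hq)
  have h2 : (c, y') ∈ Ω := h1 ⟨c, ⟨le_max_left _ _, le_rfl⟩, rfl⟩
  have h3 : (fun y : Y => (c, y)) '' Metric.ball y0 ρ ⊆ Ω := by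
    refine subset_of_no_frontier hΩ ((convex_ball y0 ρ).isPreconnected.image _ (by fun_prop))
      ⟨(c, y'), ⟨y', hy', rfl⟩, h2⟩ ?_
    rintro _ ⟨y, hy, rfl⟩ hq
    have h4 : 0 < G y c := lt_of_lt_of_le (hplus y hy) ((hmono y hy).monotoneOn hm hc1
      (le_max_right _ _))
    exact h4.ne' (hfr y hy c hc1 hq)
  exact ⟨c, hc1, h3 ⟨y0, Metric.mem_ball_self hρ, rfl⟩⟩

/-- The symmetric statement. -/
theorem exists_below {Ω : Set (ℝ × Y)} (hΩ : IsOpen Ω) {G : Y → ℝ → ℝ} {y0 : Y} {ρ a b : ℝ}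
    (hmono : ∀ y ∈ Metric.ball y0 ρ, StrictMonoOn (G y) (Set.Ioo a b))
    {m : ℝ} (hm : m ∈ Set.Ioo a b)
    (hminus : ∀ y ∈ Metric.ball y0 ρ, G y m < 0)
    (hfr : ∀ y ∈ Metric.ball y0 ρ, ∀ x ∈ Set.Ioo a b, (x, y) ∈ frontier Ω → G y x = 0)
    {y' : Y} (hy' : y' ∈ Metric.ball y0 ρ) {x' : ℝ} (hx' : x' ∈ Set.Ioo a b)
    (hG : G y' x' < 0) (hmem : (x', y') ∈ Ω) : ∃ x ∈ Set.Ioo a b, (x, y0) ∈ Ω := by
  have hρ : 0 < ρ := Metric.pos_of_mem_ball hy'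
  set c := min x' m with hc
  have hc1 : c ∈ Set.Ioo a b := ⟨lt_min hx'.1 hm.1, lt_of_le_of_lt (min_le_left _ _) hx'.2⟩
  have hS1 : ∀ t ∈ Set.Icc c x', t ∈ Set.Ioo a b ∧ G y' t < 0 := by
    intro t ht
    have ht' : t ∈ Set.Ioo a b := ⟨lt_of_lt_of_le hc1.1 ht.1, lt_of_le_of_lt ht.2 hx'.2⟩
    exact ⟨ht', lt_of_le_of_lt ((hmono y' hy').monotoneOn ht' hx' ht.2) hG⟩
  have h1 : (fun t : ℝ => (t, y')) '' Set.Icc c x' ⊆ Ω := by
    refine subset_of_no_frontier hΩ (isPreconnected_Icc.image _ (by fun_prop))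
      ⟨(x', y'), ⟨x', ⟨min_le_left _ _, le_rfl⟩, rfl⟩, hmem⟩ ?_
    rintro _ ⟨t, ht, rfl⟩ hq
    exact (hS1 t ht).2.ne (hfr y' hy' t (hS1 t ht).1 hq)
  have h2 : (c, y') ∈ Ω := h1 ⟨c, ⟨le_rfl, min_le_left _ _⟩, rfl⟩
  have h3 : (fun y : Y => (c, y)) '' Metric.ball y0 ρ ⊆ Ω := by
    refine subset_of_no_frontier hΩ ((convex_ball y0 ρ).isPreconnected.image _ (by fun_prop))
      ⟨(c, y'), ⟨y', hy', rfl⟩, h2⟩ ?_
    rintro _ ⟨y, hy, rfl⟩ hq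
    have h4 : G y c < 0 := lt_of_le_of_lt ((hmono y hy).monotoneOn hc1 hm
      (min_le_right _ _)) (hminus y hy)
    exact h4.ne (hfr y hy c hc1 hq)
  exact ⟨c, hc1, h3 ⟨y0, Metric.mem_ball_self hρ, rfl⟩⟩

/-- Moving from a nearby point of `Ω` to the vertical line of `y0`. -/
theorem exists_mem_line {Ω : Set (ℝ × Y)} (hΩ : IsOpen Ω) {G : Y → ℝ → ℝ} {y0 : Y}
    {ρ a b : ℝ} (hmono : ∀ y ∈ Metric.ball y0 ρ, StrictMonoOn (G y) (Set.Ioo a b))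
    {m m' : ℝ} (hm : m ∈ Set.Ioo a b) (hm' : m' ∈ Set.Ioo a b)
    (hplus : ∀ y ∈ Metric.ball y0 ρ, 0 < G y m) (hminus : ∀ y ∈ Metric.ball y0 ρ, G y m' < 0)
    (hfr : ∀ y ∈ Metric.ball y0 ρ, ∀ x ∈ Set.Ioo a b, (x, y) ∈ frontier Ω → G y x = 0)
    {y' : Y} (hy' : y' ∈ Metric.ball y0 ρ) {x' : ℝ} (hx' : x' ∈ Set.Ioo a b)
    (hmem : (x', y') ∈ Ω) : ∃ x ∈ Set.Ioo a b, (x, y0) ∈ Ω := by
  obtain ⟨x1, hx1, hx1Ω, hne⟩ : ∃ x1 ∈ Set.Ioo a b, (x1, y') ∈ Ω ∧ G y' x1 ≠ 0 := by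
    by_cases h0 : G y' x' = 0
    · have hev : ∀ᶠ x1 in 𝓝 x', x1 ∈ Set.Ioo a b ∧ (x1, y') ∈ Ω := by
        refine Filter.Eventually.and (isOpen_Ioo.mem_nhds hx') ?_
        have hc : ContinuousAt (fun t : ℝ => (t, y')) x' := by fun_prop
        exact hc.eventually (hΩ.mem_nhds hmem)
      have hev' : ∀ᶠ x1 in 𝓝[>] x', x1 ∈ Set.Ioo a b ∧ (x1, y') ∈ Ω :=
        hev.filter_mono nhdsWithin_le_nhds
      obtain ⟨x1, ⟨h1, h2⟩, h3⟩ := (hev'.and self_mem_nhdsWithin).exists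
      refine ⟨x1, h1, h2, ?_⟩
      have h4 := hmono y' hy' hx' h1 h3
      rw [h0] at h4
      exact h4.ne'
    · exact ⟨x', hx', hmem, h0⟩
  rcases lt_or_gt_of_ne hne with h | h
  · exact exists_below hΩ hmono hm' hminus hfr hy' hx1 h hx1Ω
  · exact exists_above hΩ hmono hm hplus hfr hy' hx1 h hx1Ω

omit [NormedSpace ℝ Y] in
theorem continuousAt_eval {g : Y → ℝ[X]} {N : ℕ} (hN : ∀ y, (g y).natDegree ≤ N) {y0 : Y}
    (hc : ∀ i, ContinuousAt (fun y => (g y).coeff i) y0) (x0 : ℝ) :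
    ContinuousAt (fun q : ℝ × Y => (g q.2).eval q.1) (x0, y0) := by
  have h1 : (fun q : ℝ × Y => (g q.2).eval q.1) =
      fun q => ∑ i ∈ Finset.range (N + 1), (g q.2).coeff i * q.1 ^ i := by
    funext q
    exact eval_eq_sum_range' (Nat.lt_succ_of_le (hN q.2)) q.1
  rw [h1]
  refine tendsto_finsetSum _ fun i _ => ?_
  have h2 : ContinuousAt (fun q : ℝ × Y => (g q.2).coeff i) (x0, y0) :=
    ContinuousAt.comp (f := Prod.snd) (g := fun y => (g y).coeff i) (hc i) continuousAt_snd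
  exact h2.mul (by fun_prop)

/-- The local analysis near a simple zero. -/
theorem local_line {Ω : Set (ℝ × Y)} (hΩ : IsOpen Ω) {g : Y → ℝ[X]} {N : ℕ}
    (hN : ∀ y, (g y).natDegree ≤ N) {y0 : Y}
    (hc : ∀ i, ContinuousAt (fun y => (g y).coeff i) y0) {x0 r : ℝ} (hx0 : |x0| < r)
    (hg0 : (g y0).eval x0 = 0) (hg1 : 0 < (derivative (g y0)).eval x0)
    (hfr : ∀ᶠ y in 𝓝 y0, ∀ x : ℝ, |x| ≤ r → (x, y) ∈ frontier Ω → (g y).eval x = 0)
    (hcl : ∃ᶠ q : ℝ × Y in 𝓝 (x0, y0), q ∈ Ω) : ∃ x : ℝ, |x| < r ∧ (x, y0) ∈ Ω := by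
  -- continuity of the derivative
  have hdN : ∀ y, (derivative (g y)).natDegree ≤ N := fun y =>
    (natDegree_derivative_le _).trans ((Nat.sub_le _ _).trans (hN y))
  have hdc : ∀ i, ContinuousAt (fun y => (derivative (g y)).coeff i) y0 := by
    intro i
    simp only [coeff_derivative]
    exact (hc (i + 1)).mul continuousAt_const
  have hder := continuousAt_eval hdN hdc x0
  have hev1 : ∀ᶠ q : ℝ × Y in 𝓝 (x0, y0), 0 < (derivative (g q.2)).eval q.1 :=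
    hder.eventually (lt_mem_nhds hg1)
  obtain ⟨ε0, hε0, h1⟩ := Metric.eventually_nhds_iff.1 hev1
  obtain ⟨ρ0, hρ0, h2⟩ := Metric.eventually_nhds_iff.1 hfr
  set ε := min (ε0 / 2) ((r - |x0|) / 2) with hε
  have hεpos : 0 < ε := lt_min (by linarith only [hε0]) (by linarith only [hx0])
  have hεε0 : ε < ε0 := lt_of_le_of_lt (min_le_left _ _) (by linarith only [hε0])
  have hεr : ε < r - |x0| := lt_of_le_of_lt (min_le_right _ _) (by linarith only [hx0])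
  have hIoo : ∀ x ∈ Set.Ioo (x0 - ε) (x0 + ε), |x| < r := by
    intro x hx
    have h3 : |x - x0| < ε := by
      rw [abs_lt]; constructor <;> linarith only [hx.1, hx.2]
    have h4 := abs_sub_abs_le_abs_sub x x0
    linarith only [hεr, h3, h4]
  have hpos : ∀ y ∈ Metric.ball y0 ε0, ∀ x ∈ Set.Ioo (x0 - ε) (x0 + ε),
      0 < (derivative (g y)).eval x := by
    intro y hy x hx
    refine h1 (y := (x, y)) ?_
    rw [Prod.dist_eq]
    refine max_lt ?_ hy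
    rw [Real.dist_eq, abs_lt]
    constructor <;> linarith only [hεε0, hx.1, hx.2]
  have hmono0 : ∀ y ∈ Metric.ball y0 ε0, StrictMonoOn (fun x => (g y).eval x)
      (Set.Ioo (x0 - ε) (x0 + ε)) := by
    intro y hy
    refine strictMonoOn_of_deriv_pos (convex_Ioo _ _) (g y).continuous.continuousOn fun x hx => ?_
    rw [interior_Ioo] at hx
    rw [Polynomial.deriv]
    exact hpos y hy x hx
  have hmI : x0 + ε / 2 ∈ Set.Ioo (x0 - ε) (x0 + ε) := ⟨by linarith only [hεpos], by linarith only [hεpos]⟩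
  have hmI' : x0 - ε / 2 ∈ Set.Ioo (x0 - ε) (x0 + ε) := ⟨by linarith only [hεpos], by linarith only [hεpos]⟩
  have hxI : x0 ∈ Set.Ioo (x0 - ε) (x0 + ε) := ⟨by linarith only [hεpos], by linarith only [hεpos]⟩
  have hy0 : y0 ∈ Metric.ball y0 ε0 := Metric.mem_ball_self hε0
  have hp0 : 0 < (g y0).eval (x0 + ε / 2) := by
    have := hmono0 y0 hy0 hxI hmI (by linarith only [hεpos])
    simp only [hg0] at this
    exact this
  have hm0 : (g y0).eval (x0 - ε / 2) < 0 := by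
    have := hmono0 y0 hy0 hmI' hxI (by linarith only [hεpos])
    simp only [hg0] at this
    exact this
  have hcy : ∀ x : ℝ, ContinuousAt (fun y => (g y).eval x) y0 := by
    intro x
    exact ContinuousAt.comp (f := fun y : Y => (x, y)) (g := fun q : ℝ × Y => (g q.2).eval q.1)
      (continuousAt_eval hN hc x) (by fun_prop)
  obtain ⟨ρ1, hρ1, h3⟩ := Metric.eventually_nhds_iff.1 ((hcy (x0 + ε / 2)).eventually
    (lt_mem_nhds hp0))
  obtain ⟨ρ2, hρ2, h4⟩ := Metric.eventually_nhds_iff.1 ((hcy (x0 - ε / 2)).eventually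
    (gt_mem_nhds hm0))
  set ρ := min (min ε0 ρ0) (min ρ1 ρ2) with hρ
  have hρpos : 0 < ρ := lt_min (lt_min hε0 hρ0) (lt_min hρ1 hρ2)
  have e1 : ∀ y ∈ Metric.ball y0 ρ, dist y y0 < ε0 := fun y hy =>
    lt_of_lt_of_le hy ((min_le_left _ _).trans (min_le_left _ _))
  have e2 : ∀ y ∈ Metric.ball y0 ρ, dist y y0 < ρ0 := fun y hy =>
    lt_of_lt_of_le hy ((min_le_left _ _).trans (min_le_right _ _))
  have e3 : ∀ y ∈ Metric.ball y0 ρ, dist y y0 < ρ1 := fun y hy =>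
    lt_of_lt_of_le hy ((min_le_right _ _).trans (min_le_left _ _))
  have e4 : ∀ y ∈ Metric.ball y0 ρ, dist y y0 < ρ2 := fun y hy =>
    lt_of_lt_of_le hy ((min_le_right _ _).trans (min_le_right _ _))
  have hbox : ∀ᶠ q : ℝ × Y in 𝓝 (x0, y0), q.1 ∈ Set.Ioo (x0 - ε) (x0 + ε) ∧
      q.2 ∈ Metric.ball y0 ρ := by
    refine Filter.Eventually.and ?_ ?_
    · exact (continuousAt_fst (p := (x0, y0))).eventually (isOpen_Ioo.mem_nhds hxI)
    · exact (continuousAt_snd (p := (x0, y0))).eventually (Metric.ball_mem_nhds y0 hρpos)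
  obtain ⟨⟨x', y'⟩, hq, hx', hy'⟩ := (hcl.and_eventually hbox).exists
  obtain ⟨x, hx, hxΩ⟩ := exists_mem_line hΩ (G := fun y x => (g y).eval x) (y0 := y0) (ρ := ρ)
    (fun y hy => hmono0 y (e1 y hy)) hmI hmI' (fun y hy => h3 (e3 y hy)) (fun y hy => h4 (e4 y hy))
    (fun y hy x hx hf => h2 (e2 y hy) x (hIoo x hx).le hf) hy' hx' hq
  exact ⟨x, hIoo x hx, hxΩ⟩

end PF

open PF

variable [FiniteDimensional ℝ Y]

/-- The frontier of the projection of an open set whose frontier lies in a set of simple zeros. -/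
theorem projection_frontier {p0 : Y} {Ω : Set (ℝ × Y)} (hΩ : IsOpen Ω) {r : ℝ} (hr : 0 < r)
    {P g : Y → ℝ[X]} {Δ : Y → ℝ} {N : ℕ}
    (hg : ∀ i, AnalyticAt ℝ (fun y => (g y).coeff i) p0) (hgN : ∀ y, (g y).natDegree ≤ N)
    (hΔ : AnalyticAt ℝ Δ p0)
    (h1 : ∀ᶠ y in 𝓝 p0, (r, y) ∉ closure Ω ∧ (-r, y) ∉ closure Ω)
    (h2 : ∀ᶠ y in 𝓝 p0, ∀ x : ℝ, |x| ≤ r → (x, y) ∈ frontier Ω → (P y).eval x = 0)
    (h3 : ∀ᶠ y in 𝓝 p0, Δ y ≠ 0 → ∀ x : ℝ, (P y).eval x = 0 →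
        (g y).eval x = 0 ∧ (derivative (g y)).eval x ≠ 0) :
    ∃ W : Set Y, IsOpen W ∧ p0 ∈ W ∧
      IsOpen {y | y ∈ W ∧ Δ y ≠ 0 ∧ ∃ x : ℝ, |x| < r ∧ (x, y) ∈ Ω} ∧
      ∀ y ∈ W, y ∈ frontier {y | y ∈ W ∧ Δ y ≠ 0 ∧ ∃ x : ℝ, |x| < r ∧ (x, y) ∈ Ω} → Δ y = 0 := by
  have hgc : ∀ᶠ y in 𝓝 p0, ∀ i, ContinuousAt (fun y => (g y).coeff i) y := by
    have h4 : ∀ᶠ y in 𝓝 p0, ∀ i ∈ Finset.range (N + 1),
        ContinuousAt (fun y => (g y).coeff i) y := by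
      rw [Filter.eventually_all_finset]
      intro i _
      filter_upwards [(hg i).eventually_analyticAt] with y hy
      exact hy.continuousAt
    filter_upwards [h4] with y hy i
    by_cases hi : i ∈ Finset.range (N + 1)
    · exact hy i hi
    · have h5 : (fun y => (g y).coeff i) = fun _ => 0 := by
        funext z
        refine coeff_eq_zero_of_natDegree_lt (lt_of_le_of_lt (hgN z) ?_)
        rw [Finset.mem_range, not_lt] at hi
        omega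
      rw [h5]
      exact continuousAt_const
  have hΔc : ∀ᶠ y in 𝓝 p0, ContinuousAt Δ y := by
    filter_upwards [hΔ.eventually_analyticAt] with y hy
    exact hy.continuousAt
  obtain ⟨W, hWall, hWo, hpW⟩ := eventually_nhds_iff.1
    ((hgc.and hΔc).and ((h1.and h2).and h3))
  have hopen : IsOpen {y | y ∈ W ∧ Δ y ≠ 0 ∧ ∃ x : ℝ, |x| < r ∧ (x, y) ∈ Ω} := by
    rw [isOpen_iff_mem_nhds]
    rintro y ⟨hyW, hyΔ, x, hx, hxy⟩
    have e1 : ∀ᶠ z in 𝓝 y, z ∈ W := hWo.mem_nhds hyW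
    have e2 : ∀ᶠ z in 𝓝 y, Δ z ≠ 0 := (hWall y hyW).1.2.eventually_ne hyΔ
    have e3 : ∀ᶠ z in 𝓝 y, (x, z) ∈ Ω := by
      have hc : ContinuousAt (fun z : Y => (x, z)) y := by fun_prop
      exact hc.eventually (hΩ.mem_nhds hxy)
    filter_upwards [e1, e2, e3] with z h1 h2 h3
    exact ⟨h1, h2, x, hx, h3⟩
  refine ⟨W, hWo, hpW, hopen, ?_⟩
  intro y0 hy0W hy0fr
  by_contra hΔ0
  rw [hopen.frontier_eq] at hy0fr
  obtain ⟨hcl, hnot⟩ := hy0fr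
  have hno : ∀ x : ℝ, |x| < r → (x, y0) ∉ Ω := fun x hx hxy => hnot ⟨hy0W, hΔ0, x, hx, hxy⟩
  -- a limit point above y0
  obtain ⟨yn, hyn, hlim⟩ := mem_closure_iff_seq_limit.1 hcl
  choose _ _ xn hxn hxyn using hyn
  obtain ⟨x0, hx0, θ, hθ, hxlim⟩ := (isCompact_Icc (a := -r) (b := r)).tendsto_subseq
    (fun n => show xn n ∈ Set.Icc (-r) r from ⟨(abs_lt.1 (hxn n)).1.le, (abs_lt.1 (hxn n)).2.le⟩)
  have hlim2 : Tendsto (fun n => (xn (θ n), yn (θ n))) atTop (𝓝 (x0, y0)) :=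
    hxlim.prodMk_nhds (hlim.comp hθ.tendsto_atTop)
  have hmemcl : (x0, y0) ∈ closure Ω :=
    mem_closure_of_tendsto hlim2 (Eventually.of_forall fun n => hxyn (θ n))
  have hbd := (hWall y0 hy0W).2.1.1
  have hx0r : |x0| < r := by
    refine lt_of_le_of_ne (abs_le.2 ⟨hx0.1, hx0.2⟩) fun he => ?_
    rcases (abs_eq hr.le).1 he with h | h
    · rw [h] at hmemcl; exact hbd.1 hmemcl
    · rw [h] at hmemcl; exact hbd.2 hmemcl
  have hfrq : ∃ᶠ q : ℝ × Y in 𝓝 (x0, y0), q ∈ Ω := mem_closure_iff_frequently.1 hmemcl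
  have hfront : (x0, y0) ∈ frontier Ω := by
    rw [hΩ.frontier_eq]
    exact ⟨hmemcl, hno x0 hx0r⟩
  have hP0 := (hWall y0 hy0W).2.1.2 x0 hx0r.le hfront
  obtain ⟨hg0, hg1⟩ := (hWall y0 hy0W).2.2 hΔ0 x0 hP0
  have hfr : ∀ᶠ y in 𝓝 y0, ∀ x : ℝ, |x| ≤ r → (x, y) ∈ frontier Ω → (g y).eval x = 0 := by
    filter_upwards [hWo.mem_nhds hy0W, (hWall y0 hy0W).1.2.eventually_ne hΔ0] with y hy hyΔ x hx hxf
    exact ((hWall y hy).2.2 hyΔ x ((hWall y hy).2.1.2 x hx hxf)).1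
  have hc := (hWall y0 hy0W).1.1
  rcases lt_or_gt_of_ne hg1 with hneg | hpos
  · -- replace g by -g
    obtain ⟨x, hx, hxΩ⟩ := local_line hΩ (g := fun y => -(g y)) (N := N)
      (fun y => by rw [natDegree_neg]; exact hgN y)
      (fun i => by
        simp only [coeff_neg]
        exact (hc i).neg) hx0r (by rw [eval_neg, hg0, neg_zero])
      (by rw [derivative_neg, eval_neg]; linarith only [hneg])
      (hfr.mono fun y hy x hx hxf => by rw [eval_neg, hy x hx hxf, neg_zero]) hfrq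
    exact hno x hx hxΩ
  · obtain ⟨x, hx, hxΩ⟩ := local_line hΩ hgN hc hx0r hg0 hpos hfr hfrq
    exact hno x hx hxΩ

end Vale.Agent.P218CS
end

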