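import Mathlib
import Vale.Agent.P218CS.W1

set_option linter.all false

section

/-! Auxiliary lemmas for the wing lemma. -/

open Filter Topology Polynomial Set

namespace Vale.Agent.P218CS

/-- A connected set which meets an open set and avoids its frontier is inside it. -/
lemma wing_subset {X : Type*} [TopologicalSpace X] {Ω Z : Set X} (hΩ : IsOpen Ω)
    (hZ : IsPreconnected Z) (h1 : ∀ z ∈ Z, z ∉ frontier Ω) (h2 : (Z ∩ Ω).Nonempty) : Z ⊆ Ω := by
  refine hZ.subset_left_of_subset_union (v := (closure Ω)ᶜ) hΩ isClosed_closure.isOpen_compl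
    ?_ ?_ h2
  · exact disjoint_left.2 fun z hz hz' => hz' (subset_closure hz)
  · intro z hz
    by_cases hzO : z ∈ closure Ω
    · left
      by_contra h
      exact h1 z hz (by rw [frontier, hΩ.interior_eq]; exact ⟨hzO, h⟩)
    · right
      exact hzO

lemma wing_not_mem_closure {X : Type*} [TopologicalSpace X] {Ω : Set X} (hΩ : IsOpen Ω) {z : X}
    (h1 : z ∉ frontier Ω) (h2 : z ∉ Ω) : z ∉ closure Ω := fun h =>
  h1 (by rw [frontier, hΩ.interior_eq]; exact ⟨h, h2⟩)

lemma wing_not_frontier {X : Type*} [TopologicalSpace X] {Ω : Set X} (hΩ : IsOpen Ω) {z : X}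
    (h : z ∈ Ω) : z ∉ frontier Ω := fun h' => by
  rw [frontier, hΩ.interior_eq] at h'
  exact h'.2 h

/-- An analytic function which is not locally zero at a point is not locally zero at nearby
points. -/
lemma wing_not_zero {E : Type*} [NormedAddCommGroup E] [NormedSpace ℝ E] {f : E → ℝ} {x : E}
    (hf : AnalyticAt ℝ f x) (h : ¬ ∀ᶠ y in 𝓝 x, f y = 0) :
    ∀ᶠ y in 𝓝 x, AnalyticAt ℝ f y ∧ ¬ ∀ᶠ z in 𝓝 y, f z = 0 := by
  obtain ⟨ε, hε, hB⟩ := Metric.eventually_nhds_iff_ball.1 hf.eventually_analyticAt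
  filter_upwards [Metric.ball_mem_nhds x hε] with y hy
  refine ⟨hB y hy, fun hz => h ?_⟩
  have h1 : AnalyticOnNhd ℝ f (Metric.ball x ε) := fun z hz => hB z hz
  have h2 := h1.eqOn_zero_of_preconnected_of_eventuallyEq_zero
    (convex_ball x ε).isPreconnected hy hz
  filter_upwards [Metric.ball_mem_nhds x hε] with z hz
  exact h2 hz

section direction

variable {V T : Type*} [NormedAddCommGroup V] [NormedSpace ℝ V] [NormedAddCommGroup T]
  [NormedSpace ℝ T]

/-- A direction in which the function is not locally zero. -/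
lemma wing_direction [Nontrivial V] {F : V × T → ℝ} {q0 : T} (hF : AnalyticAt ℝ F (0, q0))
    (hF0 : ¬ ∀ᶠ p in 𝓝 ((0 : V), q0), F p = 0) :
    ∃ v : V, v ≠ 0 ∧ ¬ ∀ᶠ p in 𝓝 ((0 : ℝ), q0), F (p.1 • v, p.2) = 0 := by
  obtain ⟨ε, hε, hB⟩ := Metric.eventually_nhds_iff_ball.1 hF.eventually_analyticAt
  obtain ⟨z, hz, hFz⟩ : ∃ z ∈ Metric.ball ((0 : V), q0) ε, F z ≠ 0 := by
    by_contra! hcon
    exact hF0 (by filter_upwards [Metric.ball_mem_nhds _ hε] with y hy using hcon y hy)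
  have h1 : ∀ᶠ y in 𝓝 z, y ∈ Metric.ball ((0 : V), q0) ε ∧ F y ≠ 0 := by
    filter_upwards [Metric.isOpen_ball.mem_nhds hz, (hB z hz).continuousAt.eventually_ne hFz]
      with y h1 h2 using ⟨h1, h2⟩
  have h2 : ∀ᶠ v in 𝓝 z.1, (v, z.2) ∈ Metric.ball ((0 : V), q0) ε ∧ F (v, z.2) ≠ 0 := by
    have hc : Tendsto (fun v : V => (v, z.2)) (𝓝 z.1) (𝓝 z) := by
      have : ContinuousAt (fun v : V => (v, z.2)) z.1 := by fun_prop
      exact this
    exact hc.eventually h1
  have : (𝓝[≠] (0 : V)).NeBot := Module.punctured_nhds_neBot ℝ V 0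
  obtain ⟨v, hv0, hv⟩ := (dense_compl_singleton (0 : V)).inter_nhds_nonempty h2
  refine ⟨v, hv0, fun hzero => ?_⟩
  set φ : ℝ × T →L[ℝ] V × T :=
    ((ContinuousLinearMap.fst ℝ ℝ T).smulRight v).prod (ContinuousLinearMap.snd ℝ ℝ T) with hφ
  have hφa : ∀ p, φ p = (p.1 • v, p.2) := fun p => rfl
  set U : Set (ℝ × T) := φ ⁻¹' Metric.ball ((0 : V), q0) ε with hU
  have hUc : Convex ℝ U := (convex_ball ((0 : V), q0) ε).linear_preimage (φ : ℝ × T →ₗ[ℝ] V × T)
  have hUa : AnalyticOnNhd ℝ (fun p => F (φ p)) U := fun p hp =>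
    (hB _ hp).comp (φ.analyticAt p)
  have h0 : ((0 : ℝ), q0) ∈ U := by
    have : φ ((0 : ℝ), q0) = (0, q0) := by rw [hφa, zero_smul]
    rw [hU, mem_preimage, this]
    exact Metric.mem_ball_self hε
  have h3 := hUa.eqOn_zero_of_preconnected_of_eventuallyEq_zero hUc.isPreconnected h0 hzero
  have h4 : ((1 : ℝ), z.2) ∈ U := by
    have : φ ((1 : ℝ), z.2) = (v, z.2) := by rw [hφa, one_smul]
    rw [hU, mem_preimage, this]
    exact hv.1
  have h5 := h3 h4
  simp only [hφa, one_smul, Pi.zero_apply] at h5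
  exact hv.2 h5

/-- Coordinates adapted to a vector. -/
lemma wing_coords (n : ℕ) {v : Fin (n + 1) → ℝ} (hv : v ≠ 0) :
    ∃ L : (ℝ × (Fin n → ℝ)) ≃L[ℝ] (Fin (n + 1) → ℝ), ∀ x : ℝ, L (x, 0) = x • v := by
  obtain ⟨i, hi⟩ : ∃ i, v i ≠ 0 := by
    by_contra! hcon
    exact hv (funext hcon)
  let f : (ℝ × (Fin n → ℝ)) →ₗ[ℝ] (Fin (n + 1) → ℝ) :=
    { toFun := fun p => p.1 • v + i.insertNth (0 : ℝ) p.2
      map_add' := by
        intro p q
        ext j
        rcases Fin.eq_self_or_eq_succAbove i j with h | ⟨k, h⟩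
        · subst h
          simp [add_mul]
        · subst h
          simp only [Prod.fst_add, Prod.snd_add, Pi.add_apply, Pi.smul_apply, smul_eq_mul,
            Fin.insertNth_apply_succAbove]
          ring
      map_smul' := by
        intro c p
        ext j
        rcases Fin.eq_self_or_eq_succAbove i j with h | ⟨k, h⟩
        · subst h
          simp [mul_assoc]
        · subst h
          simp only [Prod.smul_fst, Prod.smul_snd, Pi.add_apply, Pi.smul_apply, smul_eq_mul,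
            Fin.insertNth_apply_succAbove, RingHom.id_apply]
          ring }
  have hf : ∀ p, f p = p.1 • v + i.insertNth (0 : ℝ) p.2 := fun p => rfl
  have hinj : Function.Injective f := by
    rw [← LinearMap.ker_eq_bot, LinearMap.ker_eq_bot']
    intro p hp
    rw [hf] at hp
    have h1 : p.1 = 0 := by
      have := congrFun hp i
      simp only [Pi.add_apply, Pi.smul_apply, smul_eq_mul, Fin.insertNth_apply_same, add_zero,
        Pi.zero_apply, mul_eq_zero] at this
      exact this.resolve_right hi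
    have h2 : p.2 = 0 := by
      ext k
      have := congrFun hp (i.succAbove k)
      simp only [Pi.add_apply, Pi.smul_apply, smul_eq_mul, Fin.insertNth_apply_succAbove,
        Pi.zero_apply, h1, zero_mul, zero_add] at this
      exact this
    exact Prod.ext h1 h2
  have hdim : Module.finrank ℝ (ℝ × (Fin n → ℝ)) = Module.finrank ℝ (Fin (n + 1) → ℝ) := by
    rw [Module.finrank_prod, Module.finrank_self, Module.finrank_fin_fun, Module.finrank_fin_fun]
    ring
  refine ⟨(f.linearEquivOfInjective hinj hdim).toContinuousLinearEquiv, fun x => ?_⟩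
  have h1 : (f.linearEquivOfInjective hinj hdim).toContinuousLinearEquiv (x, 0) = f (x, 0) := rfl
  rw [h1, hf]
  ext j
  rcases Fin.eq_self_or_eq_succAbove i j with h | ⟨k, h⟩
  · subst h
    simp
  · subst h
    simp

end direction

section roots

variable {Y : Type*} [TopologicalSpace Y]

/-- A frontier point between a point of the open set and a point off its closure. -/
lemma wing_between {Ω : Set (ℝ × Y)} (hΩ : IsOpen Ω) {y : Y} {a b : ℝ} (hab : a < b)
    (h : ((a, y) ∈ Ω ∧ (b, y) ∉ closure Ω) ∨ ((b, y) ∈ Ω ∧ (a, y) ∉ closure Ω)) :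
    ∃ x ∈ Ioo a b, (x, y) ∈ frontier Ω := by
  by_contra! hcon
  set Z : Set (ℝ × Y) := (fun x : ℝ => (x, y)) '' Icc a b with hZ
  have hZc : IsPreconnected Z := isPreconnected_Icc.image _ (by fun_prop)
  have ha : (a, y) ∈ Z := ⟨a, left_mem_Icc.2 hab.le, rfl⟩
  have hb : (b, y) ∈ Z := ⟨b, right_mem_Icc.2 hab.le, rfl⟩
  have hend : (a, y) ∉ frontier Ω ∧ (b, y) ∉ frontier Ω := by
    rcases h with ⟨h1, h2⟩ | ⟨h1, h2⟩
    · exact ⟨wing_not_frontier hΩ h1, fun h' => h2 (frontier_subset_closure h')⟩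
    · exact ⟨fun h' => h2 (frontier_subset_closure h'), wing_not_frontier hΩ h1⟩
  have hfr : ∀ z ∈ Z, z ∉ frontier Ω := by
    rintro z ⟨x, hx, rfl⟩
    rcases hx.1.eq_or_lt with h1 | h1
    · rw [← h1]; exact hend.1
    rcases hx.2.eq_or_lt with h2 | h2
    · rw [h2]; exact hend.2
    · exact hcon x ⟨h1, h2⟩
  rcases h with ⟨h1, h2⟩ | ⟨h1, h2⟩
  · exact h2 (subset_closure (wing_subset hΩ hZc hfr ⟨_, ha, h1⟩ hb))
  · exact h2 (subset_closure (wing_subset hΩ hZc hfr ⟨_, hb, h1⟩ ha))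

/-- The slab between two functions. -/
lemma wing_slab {S : Type*} [TopologicalSpace S] {Ω : Set (ℝ × Y)} (hΩ : IsOpen Ω) {D : Set S}
    (hD : IsPreconnected D) {yy : S → Y} {α β : S → ℝ} (hy : ContinuousOn yy D)
    (hα : ContinuousOn α D) (hβ : ContinuousOn β D)
    (hfr : ∀ p ∈ D, ∀ x ∈ Ioo (α p) (β p), (x, yy p) ∉ frontier Ω)
    {p1 : S} (hp1 : p1 ∈ D) {x1 : ℝ} (hx1 : x1 ∈ Ioo (α p1) (β p1)) (hx1Ω : (x1, yy p1) ∈ Ω)
    (hαβ : ∀ p ∈ D, α p < β p) :
    ∀ p ∈ D, ∀ x ∈ Ioo (α p) (β p), (x, yy p) ∈ Ω := by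
  set f : S × ℝ → ℝ × Y := fun z => (α z.1 + z.2 * (β z.1 - α z.1), yy z.1) with hf
  have hc : ContinuousOn f (D ×ˢ Ioo (0 : ℝ) 1) := by
    have h1 : ContinuousOn (fun z : S × ℝ => α z.1) (D ×ˢ Ioo (0 : ℝ) 1) :=
      hα.comp continuousOn_fst fun z hz => hz.1
    have h2 : ContinuousOn (fun z : S × ℝ => β z.1) (D ×ˢ Ioo (0 : ℝ) 1) :=
      hβ.comp continuousOn_fst fun z hz => hz.1
    have h3 : ContinuousOn (fun z : S × ℝ => yy z.1) (D ×ˢ Ioo (0 : ℝ) 1) :=
      hy.comp continuousOn_fst fun z hz => hz.1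
    exact (h1.add (continuousOn_snd.mul (h2.sub h1))).prodMk h3
  have hZ : IsPreconnected (f '' (D ×ˢ Ioo (0 : ℝ) 1)) := (hD.prod isPreconnected_Ioo).image _ hc
  have key : ∀ p ∈ D, ∀ x ∈ Ioo (α p) (β p), (x, yy p) ∈ f '' (D ×ˢ Ioo (0 : ℝ) 1) := by
    intro p hp x hx
    have h0 : 0 < β p - α p := by linarith [hαβ p hp]
    refine ⟨(p, (x - α p) / (β p - α p)), ⟨hp, ?_, ?_⟩, ?_⟩
    · exact div_pos (by linarith [hx.1]) h0
    · rw [div_lt_one h0]
      linarith [hx.2]
    · simp only [hf]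
      rw [div_mul_cancel₀ _ h0.ne']
      simp
  have hsub := wing_subset hΩ hZ ?_ ⟨_, key p1 hp1 x1 hx1, hx1Ω⟩
  · exact fun p hp x hx => hsub (key p hp x hx)
  · rintro z ⟨⟨p, l⟩, ⟨hp, hl⟩, rfl⟩
    have h0 : 0 < β p - α p := by linarith [hαβ p hp]
    refine hfr p hp _ ⟨?_, ?_⟩
    · have := mul_pos hl.1 h0
      simp only
      linarith
    · have := mul_lt_mul_of_pos_right hl.2 h0
      simp only
      linarith

/-- Real roots of a monic polynomial near `X ^ b` are small. -/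
lemma wing_root_bound {P : Y → ℝ[X]} {b : ℕ} {p1 : Y}
    (hm : ∀ y, (P y).Monic ∧ (P y).natDegree = b)
    (hP : ∀ i, ContinuousAt (fun y => (P y).coeff i) p1) (h1 : P p1 = X ^ b) {r : ℝ}
    (hr : 0 < r) : ∀ᶠ y in 𝓝 p1, ∀ x : ℝ, (P y).eval x = 0 → |x| < r := by
  have hc : ContinuousAt (fun y => ∑ i ∈ Finset.range b, |(P y).coeff i| * (1 / r) ^ (b - i)) p1 := by
    refine tendsto_finsetSum _ fun i _ => ?_
    exact ((hP i).abs).mul continuousAt_const
  have h0 : ∑ i ∈ Finset.range b, |(P p1).coeff i| * (1 / r) ^ (b - i) = 0 := by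
    refine Finset.sum_eq_zero fun i hi => ?_
    rw [h1, coeff_X_pow, if_neg (Finset.mem_range.1 hi).ne]
    simp
  have hev := hc.eventually_lt (continuousAt_const (y := (1 : ℝ))) (by rw [h0]; norm_num)
  filter_upwards [hev] with y hy x hx
  by_contra! hcon
  have hxpos : 0 < |x| := lt_of_lt_of_le hr hcon
  have e1 : x ^ b = - ∑ i ∈ Finset.range b, (P y).coeff i * x ^ i := by
    have h2 : (P y).natDegree < b + 1 := by rw [(hm y).2]; exact Nat.lt_succ_self b
    rw [eval_eq_sum_range' h2, Finset.sum_range_succ] at hx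
    have h3 : (P y).coeff b = 1 := by
      have := (hm y).1.coeff_natDegree
      rwa [(hm y).2] at this
    rw [h3] at hx
    linarith
  have e2 : |x| ^ b ≤ ∑ i ∈ Finset.range b, |(P y).coeff i| * |x| ^ i := by
    rw [← abs_pow, e1, abs_neg]
    refine (Finset.abs_sum_le_sum_abs _ _).trans (le_of_eq ?_)
    exact Finset.sum_congr rfl fun i _ => by rw [abs_mul, abs_pow]
  have e3 : ∑ i ∈ Finset.range b, |(P y).coeff i| * |x| ^ i ≤
      |x| ^ b * ∑ i ∈ Finset.range b, |(P y).coeff i| * (1 / r) ^ (b - i) := by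
    rw [Finset.mul_sum]
    refine Finset.sum_le_sum fun i hi => ?_
    have hib := (Finset.mem_range.1 hi).le
    have e4 : |x| ^ b = |x| ^ i * |x| ^ (b - i) := by rw [← pow_add, Nat.add_sub_cancel' hib]
    have e5 : 1 ≤ |x| ^ (b - i) * (1 / r) ^ (b - i) := by
      rw [← mul_pow]
      apply one_le_pow₀
      rw [mul_one_div, one_le_div hr]
      exact hcon
    calc |(P y).coeff i| * |x| ^ i = |(P y).coeff i| * |x| ^ i * 1 := by ring
      _ ≤ |(P y).coeff i| * |x| ^ i * (|x| ^ (b - i) * (1 / r) ^ (b - i)) :=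
        mul_le_mul_of_nonneg_left e5 (by positivity)
      _ = _ := by rw [e4]; ring
  have e6 : 0 < |x| ^ b := by positivity
  have e7 := mul_lt_mul_of_pos_left hy e6
  linarith only [e7, e3, e2]

end roots

end Vale.Agent.P218CS
end

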