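import Mathlib
import Vale.Agent.P218CS.W8a

set_option linter.all false

section

/-! Auxiliary lemmas for the wing lemma, second part. -/

open Filter Topology Polynomial Set

namespace Vale.Agent.P218CS

/-- Uniformity in the first variable. -/
lemma wing_uniform {Y : Type*} [TopologicalSpace Y] {y0 : Y} {Q : ℝ × Y → Prop}
    (h : ∀ᶠ p in 𝓝 ((0 : ℝ), y0), Q p) :
    ∃ r0 > 0, ∀ r ≤ r0, ∀ᶠ y in 𝓝 y0, ∀ x : ℝ, |x| ≤ r → Q (x, y) := by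
  rw [nhds_prod_eq] at h
  obtain ⟨pa, hpa, pb, hpb, hab⟩ := Filter.eventually_prod_iff.1 h
  obtain ⟨ε, hε, hB⟩ := Metric.eventually_nhds_iff_ball.1 hpa
  refine ⟨ε / 2, half_pos hε, fun r hr => ?_⟩
  filter_upwards [hpb] with y hy x hx
  refine hab (hB x ?_) hy
  rw [Metric.mem_ball, Real.dist_eq, sub_zero]
  linarith

section sign

variable {V T : Type*} [NormedAddCommGroup V] [NormedAddCommGroup T] [NormedSpace ℝ T]

/-- The axis case. -/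
lemma wing_sign {F : ℝ × (V × T) → ℝ} {Ω : Set (ℝ × (V × T))} (hΩ : IsOpen Ω) {q1 : T} {r : ℝ}
    (hr : 0 < r)
    (h1 : ∀ᶠ t in 𝓝 q1, ∀ x : ℝ, |x| ≤ r → x ≠ 0 →
      F (x, ((0 : V), t)) ≠ 0 ∧ (x, ((0 : V), t)) ∉ frontier Ω)
    {e : ℝ} (he : |e| = 1) (h2 : (e * r, ((0 : V), q1)) ∈ Ω) :
    ∀ᶠ p in 𝓝 ((0 : ℝ), q1), 0 < p.1 →
      (e * p.1, ((0 : V), p.2)) ∈ Ω ∧ F (e * p.1, ((0 : V), p.2)) ≠ 0 := by
  obtain ⟨ρ, hρ, hB⟩ := Metric.eventually_nhds_iff_ball.1 h1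
  have hne : ∀ x : ℝ, 0 < x → x ≤ r → |e * x| ≤ r ∧ e * x ≠ 0 := by
    intro x hx hxr
    have he0 : e ≠ 0 := by
      rintro rfl
      simp at he
    refine ⟨?_, mul_ne_zero he0 hx.ne'⟩
    rw [abs_mul, he, one_mul, abs_of_pos hx]
    exact hxr
  set f : ℝ × T → ℝ × (V × T) := fun p => (e * p.1, ((0 : V), p.2)) with hf
  have hc : Continuous f := by
    rw [hf]
    fun_prop
  have hZ : IsPreconnected (f '' (Ioc 0 r ×ˢ Metric.ball q1 ρ)) :=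
    (isPreconnected_Ioc.prod (convex_ball q1 ρ).isPreconnected).image _ hc.continuousOn
  have hsub := wing_subset hΩ hZ ?_ ⟨f (r, q1), ⟨(r, q1), ⟨⟨hr, le_rfl⟩,
    Metric.mem_ball_self hρ⟩, rfl⟩, h2⟩
  · have hev : ∀ᶠ p in 𝓝 ((0 : ℝ), q1), p.1 < r ∧ p.2 ∈ Metric.ball q1 ρ := by
      have h3 : ∀ᶠ p in 𝓝 ((0 : ℝ), q1), p.1 < r :=
        continuousAt_fst.eventually (gt_mem_nhds hr)
      have h4 : ∀ᶠ p in 𝓝 ((0 : ℝ), q1), p.2 ∈ Metric.ball q1 ρ :=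
        continuousAt_snd.eventually (Metric.ball_mem_nhds q1 hρ)
      exact h3.and h4
    filter_upwards [hev] with p hp hp0
    refine ⟨hsub ⟨p, ⟨⟨hp0, hp.1.le⟩, hp.2⟩, rfl⟩, ?_⟩
    have h5 := hne p.1 hp0 hp.1.le
    exact (hB p.2 hp.2 _ h5.1 h5.2).1
  · rintro z ⟨p, ⟨hp, hp'⟩, rfl⟩
    have h5 := hne p.1 hp.1 hp.2
    exact (hB p.2 hp' _ h5.1 h5.2).2

end sign

section proj

variable {Y : Type*} [TopologicalSpace Y]

/-- Points of the closure of the projection. -/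
lemma wing_closure {Ω : Set (ℝ × Y)} (hΩ : IsOpen Ω) {W : Set Y} (hW : IsOpen W) {Δ : Y → ℝ}
    {r : ℝ} (hr : 0 < r) {y0 : Y} (hy0 : y0 ∈ W) (h : ((0 : ℝ), y0) ∈ closure Ω)
    (hΔ : ∀ᶠ y in 𝓝 y0, ¬ ∀ᶠ z in 𝓝 y, Δ z = 0) :
    y0 ∈ closure {y | y ∈ W ∧ Δ y ≠ 0 ∧ ∃ x : ℝ, |x| < r ∧ (x, y) ∈ Ω} := by
  rw [mem_closure_iff_frequently]
  intro hcon
  rw [mem_closure_iff_frequently] at h
  have h1 : ∀ᶠ p in 𝓝 ((0 : ℝ), y0), |p.1| < r := by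
    have : ContinuousAt (fun p : ℝ × Y => |p.1|) ((0 : ℝ), y0) := by fun_prop
    refine this.eventually (gt_mem_nhds ?_)
    simpa using hr
  have h2 : ∀ᶠ p in 𝓝 ((0 : ℝ), y0), (¬ ∀ᶠ z in 𝓝 p.2, Δ z = 0) ∧ p.2 ∈ W ∧
      ∀ᶠ y in 𝓝 p.2, ¬ (y ∈ W ∧ Δ y ≠ 0 ∧ ∃ x : ℝ, |x| < r ∧ (x, y) ∈ Ω) := by
    have h3 : ContinuousAt (fun p : ℝ × Y => p.2) ((0 : ℝ), y0) := continuousAt_snd
    have h4 : ∀ᶠ y in 𝓝 y0, (¬ ∀ᶠ z in 𝓝 y, Δ z = 0) ∧ y ∈ W ∧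
        ∀ᶠ y' in 𝓝 y, ¬ (y' ∈ W ∧ Δ y' ≠ 0 ∧ ∃ x : ℝ, |x| < r ∧ (x, y') ∈ Ω) := by
      filter_upwards [hΔ, hW.mem_nhds hy0, hcon.eventually_nhds] with y a b c
      exact ⟨a, b, c⟩
    exact h3.eventually h4
  obtain ⟨p, hp, hp1, hp2, hp3, hp4⟩ := (h.and_eventually (h1.and h2)).exists
  refine hp2 ?_
  have h3 : ∀ᶠ y in 𝓝 p.2, (p.1, y) ∈ Ω := by
    have : ContinuousAt (fun y : Y => (p.1, y)) p.2 := by fun_prop
    exact this.eventually (hΩ.mem_nhds hp)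
  filter_upwards [h3, hp4, hW.mem_nhds hp3] with y a b c
  by_contra h0
  exact b ⟨c, h0, p.1, hp1, a⟩

end proj

section final

/-- Choice of the two consecutive roots. -/
lemma wing_indices {l : ℕ} {S : Type*} {D : Set S} {γ : Fin l → S → ℝ}
    (hmono : ∀ p ∈ D, StrictMono fun i => γ i p) {p1 : S} (hp1 : p1 ∈ D) {x1 : ℝ}
    (hx1 : ∀ i, x1 ≠ γ i p1) (hlo : ∃ i, γ i p1 < x1) (hhi : ∃ i, x1 < γ i p1) :
    ∃ a b : Fin l, γ a p1 < x1 ∧ x1 < γ b p1 ∧ (∀ p ∈ D, γ a p < γ b p) ∧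
      ∀ p ∈ D, ∀ i, ¬ (γ a p < γ i p ∧ γ i p < γ b p) := by
  classical
  obtain ⟨a, ha, hamax⟩ := (Finset.univ.filter fun i => γ i p1 < x1).exists_max_image
    (fun i => i) (by
      obtain ⟨i, hi⟩ := hlo
      exact ⟨i, by simpa using hi⟩)
  obtain ⟨b, hb, hbmin⟩ := (Finset.univ.filter fun i => x1 < γ i p1).exists_min_image
    (fun i => i) (by
      obtain ⟨i, hi⟩ := hhi
      exact ⟨i, by simpa using hi⟩)
  simp only [Finset.mem_filter, Finset.mem_univ, true_and] at ha hamax hb hbmin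
  refine ⟨a, b, ha, hb, fun p hp => (hmono p hp) ?_, fun p hp i hi => ?_⟩
  · exact (hmono p1 hp1).lt_iff_lt.1 (ha.trans hb)
  · have h1 : a < i := (hmono p hp).lt_iff_lt.1 hi.1
    have h2 : i < b := (hmono p hp).lt_iff_lt.1 hi.2
    rcases lt_or_gt_of_ne (hx1 i) with h | h
    · exact absurd (hbmin i h) (not_le.2 h2)
    · exact absurd (hamax i h) (not_le.2 h1)

/-- A non-root in an open set. -/
lemma wing_nonroot {U : Set ℝ} (hU : IsOpen U) (hne : U.Nonempty) {P : ℝ[X]} (hP : P ≠ 0) :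
    ∃ x ∈ U, P.eval x ≠ 0 := by
  have h1 : (P.rootSet ℝ).Countable := (P.rootSet_finite ℝ).countable
  obtain ⟨x, hx, hxU⟩ := (h1.dense_compl ℝ).inter_open_nonempty U hU hne
  refine ⟨x, hx, fun h => hxU ?_⟩
  rw [mem_rootSet]
  exact ⟨hP, by simpa using h⟩

variable {Y T : Type*} [TopologicalSpace Y] [NormedAddCommGroup T] [NormedSpace ℝ T]

/-- Good behaviour of the data at a point. -/
def WingGood (Ω : Set (ℝ × Y)) (F : ℝ × Y → ℝ) (P : Y → ℝ[X]) (r : ℝ) (y : Y) : Prop :=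
  (∀ i, ContinuousAt (fun z => (P z).coeff i) y) ∧
  (∀ x : ℝ, |x| ≤ r → (F (x, y) = 0 ↔ (P y).eval x = 0)) ∧
  (∀ x : ℝ, |x| ≤ r → (x, y) ∈ frontier Ω → (P y).eval x = 0) ∧
  ((r, y) ∉ closure Ω ∧ (-r, y) ∉ closure Ω) ∧ ∀ x : ℝ, (P y).eval x = 0 → |x| < r

lemma wing_eval_continuousAt {S : Type*} [TopologicalSpace S] {P : Y → ℝ[X]} {b : ℕ}
    (hm : ∀ y, (P y).Monic ∧ (P y).natDegree = b) {y : S → Y} {γ : S → ℝ} {p : S}
    (hy : ContinuousAt y p) (hγ : ContinuousAt γ p)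
    (hP : ∀ i, ContinuousAt (fun z => (P z).coeff i) (y p)) :
    ContinuousAt (fun s => (P (y s)).eval (γ s)) p := by
  have h1 : (fun s => (P (y s)).eval (γ s)) =
      fun s => ∑ i ∈ Finset.range (b + 1), (P (y s)).coeff i * γ s ^ i := by
    funext s
    exact eval_eq_sum_range' (by rw [(hm _).2]; exact Nat.lt_succ_self b) _
  rw [h1]
  refine tendsto_finsetSum _ fun i _ => ?_
  have h2 : ContinuousAt (fun s => (P (y s)).coeff i) p := (hP i).comp hy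
  exact h2.mul (hγ.pow i)

/-- The last step of the construction. -/
lemma wing_final {Ω : Set (ℝ × Y)} (hΩ : IsOpen Ω) {F : ℝ × Y → ℝ} {P : Y → ℝ[X]} {b : ℕ}
    (hm : ∀ y, (P y).Monic ∧ (P y).natDegree = b) {r : ℝ} {q3 : T}
    {y : ℝ × T → Y} {l : ℕ} {γ : Fin l → ℝ × T → ℝ}
    (hG : ∀ᶠ p in 𝓝 ((0 : ℝ), q3), ContinuousAt y p ∧ (∀ i, ContinuousAt (γ i) p) ∧
      WingGood Ω F P r (y p))
    (hpos : ∀ᶠ p in 𝓝 ((0 : ℝ), q3), 0 < p.1 → (∃ x : ℝ, |x| < r ∧ (x, y p) ∈ Ω) ∧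
      (∀ x : ℝ, (P (y p)).eval x = 0 ↔ ∃ i, x = γ i p) ∧ StrictMono fun i => γ i p)
    (h0 : ∀ᶠ t in 𝓝 q3, ∀ x : ℝ, |x| ≤ r → x ≠ 0 → F (x, y (0, t)) ≠ 0) :
    ∃ a c : Fin l, (∀ᶠ t in 𝓝 q3, γ a (0, t) = 0 ∧ γ c (0, t) = 0) ∧
      ∀ᶠ p in 𝓝 ((0 : ℝ), q3), 0 < p.1 →
        ((γ a p + γ c p) / 2, y p) ∈ Ω ∧ F ((γ a p + γ c p) / 2, y p) ≠ 0 := by
  obtain ⟨δ, hδ, hB⟩ := Metric.eventually_nhds_iff_ball.1 (hG.and hpos)
  -- the roots vanish at zero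
  have hzero : ∀ᶠ t in 𝓝 q3, ∀ i, γ i (0, t) = 0 := by
    filter_upwards [h0, Metric.ball_mem_nhds q3 hδ] with t ht htδ i
    have hmem : ((0 : ℝ), t) ∈ Metric.ball ((0 : ℝ), q3) δ := by
      rw [Metric.mem_ball, Prod.dist_eq, dist_self]
      exact max_lt hδ htδ
    obtain ⟨⟨hyc, hγc, hgood⟩, -⟩ := hB _ hmem
    have hc := wing_eval_continuousAt hm hyc (hγc i) hgood.1
    have hline : ContinuousAt (fun s : ℝ => (s, t)) 0 := by fun_prop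
    have hc2 : ContinuousAt (fun s : ℝ => (P (y (s, t))).eval (γ i (s, t))) 0 :=
      ContinuousAt.comp (f := fun s : ℝ => (s, t)) (g := fun p => (P (y p)).eval (γ i p)) hc hline
    have hev : ∀ᶠ s in 𝓝[>] (0 : ℝ), (P (y (s, t))).eval (γ i (s, t)) = 0 := by
      have h1 : ∀ᶠ s in 𝓝[>] (0 : ℝ), (s, t) ∈ Metric.ball ((0 : ℝ), q3) δ :=
        (hline.eventually (Metric.isOpen_ball.mem_nhds hmem)).filter_mono nhdsWithin_le_nhds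
      filter_upwards [h1, self_mem_nhdsWithin] with s hs hs0
      exact (((hB _ hs).2 hs0).2.1 _).2 ⟨i, rfl⟩
    have hlim := tendsto_nhds_unique (hc2.tendsto.mono_left nhdsWithin_le_nhds)
      (tendsto_const_nhds.congr' (hev.mono fun s hs => hs.symm))
    have hlt := hgood.2.2.2.2 _ hlim
    by_contra hne
    exact ht _ hlt.le hne ((hgood.2.1 _ hlt.le).2 hlim)
  -- the domain
  set D : Set (ℝ × T) := Metric.ball ((0 : ℝ), q3) δ ∩ {p | 0 < p.1} with hD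
  have hDc : IsPreconnected D := by
    have h1 : Convex ℝ {p : ℝ × T | 0 < p.1} :=
      (convex_Ioi (0 : ℝ)).linear_preimage (LinearMap.fst ℝ ℝ T)
    exact ((convex_ball _ _).inter h1).isPreconnected
  have hp1 : (δ / 2, q3) ∈ D := by
    refine ⟨?_, ?_⟩
    · rw [Metric.mem_ball, Prod.dist_eq, dist_self, Real.dist_eq, sub_zero,
        abs_of_pos (half_pos hδ)]
      exact max_lt (half_lt_self hδ) hδ
    · exact half_pos hδ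
  set p1 : ℝ × T := (δ / 2, q3) with hp1def
  have hDa : ∀ p ∈ D, ContinuousAt y p ∧ (∀ i, ContinuousAt (γ i) p) ∧ WingGood Ω F P r (y p) :=
    fun p hp => (hB p hp.1).1
  have hDb : ∀ p ∈ D, (∃ x : ℝ, |x| < r ∧ (x, y p) ∈ Ω) ∧
      (∀ x : ℝ, (P (y p)).eval x = 0 ↔ ∃ i, x = γ i p) ∧ StrictMono fun i => γ i p :=
    fun p hp => (hB p hp.1).2 hp.2
  obtain ⟨hyc1, hγc1, hcoef1, hF1, hfr1, ⟨hr1, hr2⟩, hb1⟩ := hDa p1 hp1
  obtain ⟨⟨x0, hx0, hx0Ω⟩, hroots1, hmono1⟩ := hDb p1 hp1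
  -- a point of the open set which is not a root
  obtain ⟨x1, ⟨hx1, hx1Ω⟩, hx1root⟩ : ∃ x ∈ {x : ℝ | |x| < r ∧ (x, y p1) ∈ Ω},
      (P (y p1)).eval x ≠ 0 := by
    have h1 : IsOpen {x : ℝ | |x| < r} := isOpen_lt continuous_abs continuous_const
    have h2 : IsOpen {x : ℝ | (x, y p1) ∈ Ω} := hΩ.preimage (by fun_prop)
    have h3 : {x : ℝ | |x| < r ∧ (x, y p1) ∈ Ω}.Nonempty := ⟨x0, hx0, hx0Ω⟩
    exact wing_nonroot (h1.inter h2) h3 (hm _).1.ne_zero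
  have hx1' := abs_lt.1 hx1
  obtain ⟨xl, hxl, hxlf⟩ := wing_between hΩ hx1'.1 (Or.inr ⟨hx1Ω, hr2⟩)
  obtain ⟨xh, hxh, hxhf⟩ := wing_between hΩ hx1'.2 (Or.inl ⟨hx1Ω, hr1⟩)
  have hxlr : |xl| ≤ r := abs_le.2 ⟨hxl.1.le, (hxl.2.trans hx1'.2).le⟩
  have hxhr : |xh| ≤ r := abs_le.2 ⟨(hx1'.1.trans hxh.1).le, hxh.2.le⟩
  obtain ⟨a, c, ha, hc, hac, hbetw⟩ := wing_indices (D := D) (γ := γ)
    (fun p hp => (hDb p hp).2.2) hp1 (x1 := x1)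
    (fun i hi => hx1root ((hroots1 x1).2 ⟨i, hi⟩))
    (by
      obtain ⟨i, hi⟩ := (hroots1 xl).1 (hfr1 xl hxlr hxlf)
      exact ⟨i, by rw [← hi]; exact hxl.2⟩)
    (by
      obtain ⟨i, hi⟩ := (hroots1 xh).1 (hfr1 xh hxhr hxhf)
      exact ⟨i, by rw [← hi]; exact hxh.1⟩)
  have hnr : ∀ p ∈ D, ∀ x ∈ Ioo (γ a p) (γ c p), |x| ≤ r ∧ (P (y p)).eval x ≠ 0 := by
    intro p hp x hx
    obtain ⟨-, hroots, hmono⟩ := hDb p hp
    have hgood := (hDa p hp).2.2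
    have h1 := abs_lt.1 (hgood.2.2.2.2 _ ((hroots _).2 ⟨a, rfl⟩))
    have h2 := abs_lt.1 (hgood.2.2.2.2 _ ((hroots _).2 ⟨c, rfl⟩))
    refine ⟨abs_le.2 ⟨by linarith [hx.1], by linarith [hx.2]⟩, fun h => ?_⟩
    obtain ⟨i, hi⟩ := (hroots x).1 h
    rw [hi] at hx
    exact hbetw p hp i ⟨hx.1, hx.2⟩
  have hslab := wing_slab (Ω := Ω) hΩ hDc (yy := y) (α := γ a) (β := γ c)
    (fun p hp => (hDa p hp).1.continuousWithinAt)
    (fun p hp => ((hDa p hp).2.1 a).continuousWithinAt)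
    (fun p hp => ((hDa p hp).2.1 c).continuousWithinAt)
    (fun p hp x hx hxf => (hnr p hp x hx).2 ((hDa p hp).2.2.2.2.1 x (hnr p hp x hx).1 hxf))
    hp1 (x1 := x1) ⟨ha, hc⟩ hx1Ω hac
  refine ⟨a, c, hzero.mono fun t ht => ⟨ht a, ht c⟩, ?_⟩
  filter_upwards [Metric.ball_mem_nhds ((0 : ℝ), q3) hδ] with p hpδ hp0
  have hp : p ∈ D := ⟨hpδ, hp0⟩
  have hlt := hac p hp
  have hmid : (γ a p + γ c p) / 2 ∈ Ioo (γ a p) (γ c p) := ⟨by linarith, by linarith⟩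
  refine ⟨hslab p hp _ hmid, fun hzeroF => ?_⟩
  have h1 := hnr p hp _ hmid
  exact h1.2 (((hDa p hp).2.2.2.1 _ h1.1).1 hzeroF)

end final

end Vale.Agent.P218CS
end

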