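import Mathlib
import Vale.Agent.P218CS.W4
import Vale.Agent.P218CS.W5
import Vale.Agent.P218CS.W6
import Vale.Agent.P218CS.W7
import Vale.Agent.P218CS.W8b

set_option linter.all false

section

/-! TASK W8. -/

open Filter Topology Polynomial Set

namespace Vale.Agent.P218CS

variable {T : Type} [NormedAddCommGroup T] [NormedSpace ℝ T] [FiniteDimensional ℝ T]

/-- The statement of the wing lemma for a given space. -/
def WingStatement (A : Set T) (V : Type) [NormedAddCommGroup V] [NormedSpace ℝ V] : Prop :=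
  ∀ q0 ∈ A, ∀ F : V × T → ℝ, AnalyticAt ℝ F (0, q0) →
    (¬ ∀ᶠ p in 𝓝 ((0 : V), q0), F p = 0) → ∀ Ω : Set (V × T), IsOpen Ω →
    (∀ᶠ p in 𝓝 ((0 : V), q0), p ∈ frontier Ω → F p = 0) →
    (∀ᶠ q in 𝓝 q0, q ∈ A → ((0 : V), q) ∈ closure Ω) →
    ∀ O ∈ 𝓝 q0, ∃ q ∈ A ∩ O, ∃ σ : ℝ × T → V, AnalyticAt ℝ σ (0, q) ∧
      (∀ᶠ t in 𝓝 q, σ (0, t) = 0) ∧
      ∀ᶠ p in 𝓝 ((0 : ℝ), q), 0 < p.1 → (σ p, p.2) ∈ Ω ∧ F (σ p, p.2) ≠ 0

/-- The induction step. -/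
theorem Gen.wing_step {A : Set T} (hA : Gen A) {V : Type} [NormedAddCommGroup V]
    [NormedSpace ℝ V] [FiniteDimensional ℝ V] (IH : WingStatement A V) {q0 : T} (hq0 : q0 ∈ A)
    {F : ℝ × (V × T) → ℝ} (hF : AnalyticAt ℝ F (0, (0, q0)))
    (hF0 : ¬ ∀ᶠ p in 𝓝 ((0 : ℝ), q0), F (p.1, (0, p.2)) = 0)
    {Ω : Set (ℝ × (V × T))} (hΩ : IsOpen Ω)
    (hfr : ∀ᶠ p in 𝓝 ((0 : ℝ), ((0 : V), q0)), p ∈ frontier Ω → F p = 0)
    (hcl : ∀ᶠ q in 𝓝 q0, q ∈ A → ((0 : ℝ), ((0 : V), q)) ∈ closure Ω)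
    {O : Set T} (hO : O ∈ 𝓝 q0) :
    ∃ q ∈ A ∩ O, ∃ (σ1 : ℝ × T → ℝ) (σ2 : ℝ × T → V), AnalyticAt ℝ σ1 (0, q) ∧
      AnalyticAt ℝ σ2 (0, q) ∧ (∀ᶠ t in 𝓝 q, σ1 (0, t) = 0 ∧ σ2 (0, t) = 0) ∧
      ∀ᶠ p in 𝓝 ((0 : ℝ), q), 0 < p.1 →
        (σ1 p, (σ2 p, p.2)) ∈ Ω ∧ F (σ1 p, (σ2 p, p.2)) ≠ 0 := by
  -- the restriction to the axis
  set f : ℝ × T → ℝ := fun p => F (p.1, ((0 : V), p.2)) with hf
  have hemb : ∀ q : T, AnalyticAt ℝ (fun p : ℝ × T => (p.1, ((0 : V), p.2))) (0, q) := fun q =>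
    analyticAt_fst.prod (analyticAt_const.prod analyticAt_snd)
  have hfa : ∀ q, AnalyticAt ℝ F (0, (0, q)) → AnalyticAt ℝ f (0, q) := fun q hq =>
    AnalyticAt.comp (f := fun p : ℝ × T => (p.1, ((0 : V), p.2))) (x := ((0 : ℝ), q)) hq (hemb q)
  have htend : ∀ q : T, Tendsto (fun t : T => ((0 : ℝ), ((0 : V), t))) (𝓝 q)
      (𝓝 ((0 : ℝ), ((0 : V), q))) := fun q => by
    have : ContinuousAt (fun t : T => ((0 : ℝ), ((0 : V), t))) q := by fun_prop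
    exact this
  have htend2 : ∀ q : T, Tendsto (fun t : T => ((0 : V), t)) (𝓝 q) (𝓝 ((0 : V), q)) := fun q => by
    have : ContinuousAt (fun t : T => ((0 : V), t)) q := by fun_prop
    exact this
  have htend3 : ∀ q : T, Tendsto (fun t : T => ((0 : ℝ), t)) (𝓝 q) (𝓝 ((0 : ℝ), q)) := fun q => by
    have : ContinuousAt (fun t : T => ((0 : ℝ), t)) q := by fun_prop
    exact this
  have e1 : ∀ᶠ t in 𝓝 q0, AnalyticAt ℝ F (0, (0, t)) :=
    (htend q0).eventually hF.eventually_analyticAt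
  have e2 : ∀ᶠ t in 𝓝 q0, ¬ ∀ᶠ p in 𝓝 ((0 : ℝ), t), f p = 0 :=
    ((htend3 q0).eventually (wing_not_zero (hfa q0 hF) hF0)).mono fun t ht => ht.2
  have e3 : ∀ᶠ t in 𝓝 q0, ∀ᶠ p in 𝓝 ((0 : ℝ), ((0 : V), t)), p ∈ frontier Ω → F p = 0 :=
    (htend q0).eventually hfr.eventually_nhds
  have e4 := hcl.eventually_nhds
  have e5 : ∀ᶠ t in 𝓝 q0, O ∈ 𝓝 t := eventually_mem_nhds_iff.2 hO
  obtain ⟨q1, ⟨hq1A, hF1, hF01, hfr1, hcl1, hO1⟩, hq1⟩ :=
    hA.exists_hasOrd hq0 (ι := Unit) (f := fun _ => f) (fun _ => hfa q0 hF)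
      (O := {t | AnalyticAt ℝ F (0, (0, t)) ∧ (¬ ∀ᶠ p in 𝓝 ((0 : ℝ), t), f p = 0) ∧
        (∀ᶠ p in 𝓝 ((0 : ℝ), ((0 : V), t)), p ∈ frontier Ω → F p = 0) ∧
        (∀ᶠ q in 𝓝 t, q ∈ A → ((0 : ℝ), ((0 : V), q)) ∈ closure Ω) ∧ O ∈ 𝓝 t})
      (by filter_upwards [e1, e2, e3, e4, e5] with t a b c d e using ⟨a, b, c, d, e⟩)
  obtain ⟨hord, hfa1⟩ := hq1 ()
  rcases hord with hz | ⟨b, u, hu, hu0, hfu⟩
  · exact absurd hz hF01
  -- Weierstrass preparation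
  have hline : AnalyticAt ℝ (fun x : ℝ => (x, q1)) 0 := analyticAt_id.prod analyticAt_const
  obtain ⟨P, hm, hP, hP1, rW, hrW, hWei⟩ := weierstrass (Y := V × T) (F := F)
    (p0 := ((0 : V), q1)) hF1 (b := b) (u := fun x => u (x, q1))
    (AnalyticAt.comp (f := fun x : ℝ => (x, q1)) (x := (0 : ℝ)) hu hline) hu0
    (by
      have h1 : Tendsto (fun x : ℝ => (x, q1)) (𝓝 0) (𝓝 ((0 : ℝ), q1)) := hline.continuousAt
      exact h1.eventually hfu)
  obtain ⟨ra, hra, hRa⟩ := wing_uniform (Q := fun p : ℝ × T => p.1 ≠ 0 → f p ≠ 0)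
    (y0 := q1) (by
      filter_upwards [hfu, hu.continuousAt.eventually_ne hu0] with p h1 h2 h3
      rw [h1]
      exact smul_ne_zero (pow_ne_zero _ h3) h2)
  obtain ⟨rb, hrb, hRb⟩ := wing_uniform (Q := fun p : ℝ × (V × T) => p ∈ frontier Ω → F p = 0)
    (y0 := ((0 : V), q1)) hfr1
  obtain ⟨r, hr, hrW', hra', hrb'⟩ : ∃ r > 0, r ≤ rW ∧ r ≤ ra ∧ r ≤ rb :=
    ⟨min rW (min ra rb), lt_min hrW (lt_min hra hrb), min_le_left _ _,
      (min_le_right _ _).trans (min_le_left _ _), (min_le_right _ _).trans (min_le_right _ _)⟩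
  have hS1 := hRa r hra'
  have hS2 := hRb r hrb'
  have hS3 : ∀ᶠ y in 𝓝 ((0 : V), q1), ∀ x : ℝ, |x| ≤ r → (F (x, y) = 0 ↔ (P y).eval x = 0) :=
    hWei.mono fun y hy x hx => hy x (hx.trans hrW')
  have hS4 : ∀ᶠ y in 𝓝 ((0 : V), q1), ∀ x : ℝ, |x| ≤ r → (x, y) ∈ frontier Ω →
      (P y).eval x = 0 := by
    filter_upwards [hS2, hS3] with y a c x hx h using (c x hx).1 (a x hx h)
  -- the axis case
  have hax : ∀ᶠ t in 𝓝 q1, ∀ x : ℝ, |x| ≤ r → x ≠ 0 →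
      F (x, ((0 : V), t)) ≠ 0 ∧ (x, ((0 : V), t)) ∉ frontier Ω := by
    filter_upwards [hS1, (htend2 q1).eventually hS2] with t a c x hx hx0
    exact ⟨a x hx hx0, fun h => a x hx hx0 (c x hx h)⟩
  by_cases hcase : ∃ e : ℝ, |e| = 1 ∧ (e * r, ((0 : V), q1)) ∈ Ω
  · obtain ⟨e, he, heΩ⟩ := hcase
    refine ⟨q1, ⟨hq1A, mem_of_mem_nhds hO1⟩, fun p => e * p.1, fun _ => 0,
      analyticAt_const.mul analyticAt_fst, analyticAt_const, ?_, wing_sign hΩ hr hax he heΩ⟩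
    exact Eventually.of_forall fun t => ⟨by simp, rfl⟩
  have hne : ∀ e : ℝ, |e| = 1 → (e * r, ((0 : V), q1)) ∉ closure Ω := by
    intro e he
    refine wing_not_mem_closure hΩ ?_ fun h => hcase ⟨e, he, h⟩
    refine (hax.self_of_nhds (e * r) ?_ ?_).2
    · rw [abs_mul, he, one_mul, abs_of_pos hr]
    · refine mul_ne_zero ?_ hr.ne'
      rintro rfl
      simp at he
  have hends : ∀ᶠ y in 𝓝 ((0 : V), q1), (r, y) ∉ closure Ω ∧ (-r, y) ∉ closure Ω := by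
    have h1 : ∀ x : ℝ, (x, ((0 : V), q1)) ∉ closure Ω →
        ∀ᶠ y in 𝓝 ((0 : V), q1), (x, y) ∉ closure Ω := by
      intro x hx
      have h2 : ContinuousAt (fun y : V × T => (x, y)) ((0 : V), q1) := by fun_prop
      exact h2.eventually (isClosed_closure.isOpen_compl.mem_nhds hx)
    have h3 := hne 1 (by norm_num)
    have h4 := hne (-1) (by norm_num)
    rw [one_mul] at h3
    rw [neg_one_mul] at h4
    exact (h1 _ h3).and (h1 _ h4)
  -- elimination and projection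
  obtain ⟨g, Δ, N, hg, hgN, hΔ, hΔ0, hgΔ⟩ := elimination_analytic hm hP
  obtain ⟨W, hWo, hWp, hΩ'o, hΩ'f⟩ := projection_frontier hΩ hr hg hgN hΔ hends hS4 hgΔ
  set Ω' : Set (V × T) := {y | y ∈ W ∧ Δ y ≠ 0 ∧ ∃ x : ℝ, |x| < r ∧ (x, y) ∈ Ω} with hΩ'
  have hcl' : ∀ᶠ q in 𝓝 q1, q ∈ A → ((0 : V), q) ∈ closure Ω' := by
    have h1 : ∀ᶠ y in 𝓝 ((0 : V), q1), ¬ ∀ᶠ z in 𝓝 y, Δ z = 0 :=
      (wing_not_zero hΔ hΔ0).mono fun y hy => hy.2
    filter_upwards [hcl1, (htend2 q1).eventually h1.eventually_nhds,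
      (htend2 q1).eventually (hWo.mem_nhds hWp)] with q a c d hqA
    exact wing_closure hΩ hWo hr d (a hqA) c
  -- good behaviour
  have hGood : ∀ᶠ y in 𝓝 ((0 : V), q1), (∀ i, AnalyticAt ℝ (fun z => (P z).coeff i) y) ∧
      WingGood Ω F P r y := by
    have h1 : ∀ᶠ y in 𝓝 ((0 : V), q1), ∀ i ∈ Finset.range (b + 1),
        AnalyticAt ℝ (fun z => (P z).coeff i) y :=
      (Finset.eventually_all _).2 fun i _ => (hP i).eventually_analyticAt
    have h2 : ∀ᶠ y in 𝓝 ((0 : V), q1), ∀ i, AnalyticAt ℝ (fun z => (P z).coeff i) y := by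
      filter_upwards [h1] with y hy i
      by_cases hi : i ∈ Finset.range (b + 1)
      · exact hy i hi
      · have h3 : (fun z => (P z).coeff i) = fun _ => (0 : ℝ) := by
          funext z
          refine coeff_eq_zero_of_natDegree_lt ?_
          rw [(hm z).2]
          rw [Finset.mem_range] at hi
          omega
        rw [h3]
        exact analyticAt_const
    filter_upwards [h2, hS3, hS4, hends,
      wing_root_bound hm (fun i => (hP i).continuousAt) hP1 hr] with y a c d e k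
    exact ⟨a, fun i => (a i).continuousAt, c, d, e, k⟩
  -- induction hypothesis
  obtain ⟨q2, ⟨hq2A, hO2, hax2, hGood2⟩, s, hs, hs0, hsΩ⟩ := IH q1 hq1A Δ hΔ hΔ0 Ω' hΩ'o
    (by filter_upwards [hWo.mem_nhds hWp] with y hy using hΩ'f y hy) hcl'
    {t | O ∈ 𝓝 t ∧ (∀ᶠ t' in 𝓝 t, ∀ x : ℝ, |x| ≤ r → x ≠ 0 →
        F (x, ((0 : V), t')) ≠ 0 ∧ (x, ((0 : V), t')) ∉ frontier Ω) ∧
      ∀ᶠ y in 𝓝 ((0 : V), t), (∀ i, AnalyticAt ℝ (fun z => (P z).coeff i) y) ∧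
        WingGood Ω F P r y}
    (by
      filter_upwards [eventually_mem_nhds_iff.2 hO1, hax.eventually_nhds,
        (htend2 q1).eventually hGood.eventually_nhds] with t a c d using ⟨a, c, d⟩)
  have hs00 : s (0, q2) = 0 := hs0.self_of_nhds
  have hys : AnalyticAt ℝ (fun p : ℝ × T => (s p, p.2)) (0, q2) := hs.prod analyticAt_snd
  have hPt : ∀ i, AnalyticAt ℝ (fun p : ℝ × T => (P (s p, p.2)).coeff i) (0, q2) := by
    intro i
    refine AnalyticAt.comp (g := fun z => (P z).coeff i) (f := fun p : ℝ × T => (s p, p.2))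
      (x := ((0 : ℝ), q2)) ?_ hys
    simp only [hs00]
    exact hGood2.self_of_nhds.1 i
  obtain ⟨q3, ⟨hq3A, hO3, hax3, hGood3, hs3, hs03, hsΩ3⟩, M, hM, l, γ, hγ, hγroots⟩ :=
    hA.real_roots hq2A (P := fun p : ℝ × T => P (s p, p.2)) (fun p => hm _) hPt
      (O := {t | O ∈ 𝓝 t ∧ (∀ᶠ t' in 𝓝 t, ∀ x : ℝ, |x| ≤ r → x ≠ 0 →
          F (x, ((0 : V), t')) ≠ 0 ∧ (x, ((0 : V), t')) ∉ frontier Ω) ∧
        (∀ᶠ y in 𝓝 ((0 : V), t), (∀ i, AnalyticAt ℝ (fun z => (P z).coeff i) y) ∧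
          WingGood Ω F P r y) ∧ AnalyticAt ℝ s (0, t) ∧ (∀ᶠ t' in 𝓝 t, s (0, t') = 0) ∧
        ∀ᶠ p in 𝓝 ((0 : ℝ), t), 0 < p.1 → (s p, p.2) ∈ Ω'})
      (by
        have h1 : ∀ᶠ p in 𝓝 ((0 : ℝ), q2), 0 < p.1 → (s p, p.2) ∈ Ω' :=
          hsΩ.mono fun p hp hp0 => (hp hp0).1
        filter_upwards [eventually_mem_nhds_iff.2 hO2, hax2.eventually_nhds,
          (htend2 q2).eventually hGood2.eventually_nhds,
          (htend3 q2).eventually hs.eventually_analyticAt, hs0.eventually_nhds,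
          (htend3 q2).eventually h1.eventually_nhds] with t a c d e k m
        exact ⟨a, c, d, e, k, m⟩)
  have hs003 : s (0, q3) = 0 := hs03.self_of_nhds
  -- the change of variable
  have hφ : AnalyticAt ℝ (fun p : ℝ × T => (p.1 ^ M, p.2)) (0, q3) :=
    (analyticAt_fst.pow M).prod analyticAt_snd
  have hφ0 : (((0 : ℝ) ^ M, q3) : ℝ × T) = (0, q3) := by rw [zero_pow hM.ne']
  have hσ2 : AnalyticAt ℝ (fun p : ℝ × T => s (p.1 ^ M, p.2)) (0, q3) := by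
    refine AnalyticAt.comp (g := s) (f := fun p : ℝ × T => (p.1 ^ M, p.2))
      (x := ((0 : ℝ), q3)) ?_ hφ
    simp only [hφ0]
    exact hs3
  set y : ℝ × T → V × T := fun p => (s (p.1 ^ M, p.2), p.2) with hy
  have hya : AnalyticAt ℝ y (0, q3) := hσ2.prod analyticAt_snd
  have hy0 : y (0, q3) = (0, q3) := by
    simp only [hy, hφ0, hs003]
  have hyt : Tendsto y (𝓝 (0, q3)) (𝓝 ((0 : V), q3)) := by
    have := hya.continuousAt.tendsto
    rwa [hy0] at this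
  have hφt : Tendsto (fun p : ℝ × T => (p.1 ^ M, p.2)) (𝓝 (0, q3)) (𝓝 ((0 : ℝ), q3)) := by
    have := hφ.continuousAt.tendsto
    simp only [hφ0] at this
    exact this
  have hGf : ∀ᶠ p in 𝓝 ((0 : ℝ), q3), ContinuousAt y p ∧ (∀ i, ContinuousAt (γ i) p) ∧
      WingGood Ω F P r (y p) := by
    filter_upwards [hya.eventually_analyticAt, eventually_all.2 fun i =>
      (hγ i).eventually_analyticAt, hyt.eventually hGood3] with p a c d
    exact ⟨a.continuousAt, fun i => (c i).continuousAt, d.2⟩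
  have hpos : ∀ᶠ p in 𝓝 ((0 : ℝ), q3), 0 < p.1 → (∃ x : ℝ, |x| < r ∧ (x, y p) ∈ Ω) ∧
      (∀ x : ℝ, (P (y p)).eval x = 0 ↔ ∃ i, x = γ i p) ∧ StrictMono fun i => γ i p := by
    filter_upwards [hφt.eventually hsΩ3, hγroots] with p a c hp0
    have h1 : y p ∈ Ω' := a (pow_pos hp0 M)
    exact ⟨h1.2.2, c hp0⟩
  have h0 : ∀ᶠ t in 𝓝 q3, ∀ x : ℝ, |x| ≤ r → x ≠ 0 → F (x, y (0, t)) ≠ 0 := by
    filter_upwards [hax3, hs03] with t a c x hx hx0
    have h1 : y (0, t) = (0, t) := by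
      simp only [hy, zero_pow hM.ne', c]
    rw [h1]
    exact (a x hx hx0).1
  obtain ⟨a, c, hac0, hac⟩ := wing_final hΩ hm hGf hpos h0
  refine ⟨q3, ⟨hq3A, mem_of_mem_nhds hO3⟩, fun p => (γ a p + γ c p) / 2,
    fun p => s (p.1 ^ M, p.2), ?_, hσ2, ?_, hac⟩
  · exact ((hγ a).add (hγ c)).div analyticAt_const two_ne_zero
  · filter_upwards [hac0, hs03] with t h1 h2
    refine ⟨?_, ?_⟩
    · simp only [h1.1, h1.2]
      norm_num
    · simp only [zero_pow hM.ne', h2]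

/-- Wing lemma: analytic curve selection with parameters. -/
theorem Gen.wing {A : Set T} (hA : Gen A) (n : ℕ) {q0 : T} (hq0 : q0 ∈ A)
    {F : (Fin n → ℝ) × T → ℝ} (hF : AnalyticAt ℝ F (0, q0))
    (hF0 : ¬ ∀ᶠ p in 𝓝 ((0 : Fin n → ℝ), q0), F p = 0)
    {Ω : Set ((Fin n → ℝ) × T)} (hΩ : IsOpen Ω)
    (hfr : ∀ᶠ p in 𝓝 ((0 : Fin n → ℝ), q0), p ∈ frontier Ω → F p = 0)
    (hcl : ∀ᶠ q in 𝓝 q0, q ∈ A → ((0 : Fin n → ℝ), q) ∈ closure Ω)
    {O : Set T} (hO : O ∈ 𝓝 q0) :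
    ∃ q ∈ A ∩ O, ∃ σ : ℝ × T → (Fin n → ℝ), AnalyticAt ℝ σ (0, q) ∧
      (∀ᶠ t in 𝓝 q, σ (0, t) = 0) ∧
      ∀ᶠ p in 𝓝 ((0 : ℝ), q), 0 < p.1 → (σ p, p.2) ∈ Ω ∧ F (σ p, p.2) ≠ 0 := by
  revert q0 F Ω O
  suffices h : WingStatement A (Fin n → ℝ) by
    intro q0 hq0 F hF hF0 Ω hΩ hfr hcl O hO
    exact h q0 hq0 F hF hF0 Ω hΩ hfr hcl O hO
  induction n with
  | zero =>
    intro q0 hq0 F hF hF0 Ω hΩ hfr hcl O hO
    have hline : AnalyticAt ℝ (fun t : T => ((0 : Fin 0 → ℝ), t)) q0 :=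
      analyticAt_const.prod analyticAt_id
    have htend : Tendsto (fun t : T => ((0 : Fin 0 → ℝ), t)) (𝓝 q0) (𝓝 (0, q0)) :=
      hline.continuousAt
    have hfa : AnalyticAt ℝ (fun t : T => F (0, t)) q0 :=
      AnalyticAt.comp (f := fun t : T => ((0 : Fin 0 → ℝ), t)) (x := q0) hF hline
    have hnz : ¬ ∀ᶠ t in 𝓝 q0, t ∈ A → F (0, t) = 0 := by
      intro hcon
      refine hF0 ?_
      have h1 := hA q0 hq0 _ hfa hcon
      have h2 : Tendsto (fun p : (Fin 0 → ℝ) × T => p.2) (𝓝 (0, q0)) (𝓝 q0) :=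
        continuousAt_snd
      filter_upwards [h2.eventually h1] with p hp
      have h3 : p = (0, p.2) := Prod.ext (Subsingleton.elim _ _) rfl
      rw [h3]
      exact hp
    have hnz2 : ∃ᶠ t in 𝓝 q0, t ∈ A ∧ F (0, t) ≠ 0 := by
      rw [not_eventually] at hnz
      exact hnz.mono fun t ht => by
        rw [Classical.not_imp] at ht
        exact ht
    obtain ⟨q, ⟨hqA, hqF⟩, hqfr, hqcl, hqO, hqc⟩ := (hnz2.and_eventually
      ((htend.eventually hfr).and (hcl.and ((eventually_mem_set.2 hO).and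
        (htend.eventually hF.eventually_analyticAt))))).exists
    have hqΩ : ((0 : Fin 0 → ℝ), q) ∈ Ω := by
      by_contra hcon
      exact wing_not_mem_closure hΩ (fun h => hqF (hqfr h)) hcon (hqcl hqA)
    refine ⟨q, ⟨hqA, hqO⟩, fun _ => 0, analyticAt_const, Eventually.of_forall fun _ => rfl, ?_⟩
    have hc : Tendsto (fun p : ℝ × T => ((0 : Fin 0 → ℝ), p.2)) (𝓝 (0, q)) (𝓝 (0, q)) := by
      have : ContinuousAt (fun p : ℝ × T => ((0 : Fin 0 → ℝ), p.2)) (0, q) := by fun_prop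
      exact this
    filter_upwards [hc.eventually (hΩ.mem_nhds hqΩ),
      hc.eventually (hqc.continuousAt.eventually_ne hqF)] with p a c _ using ⟨a, c⟩
  | succ n ih =>
    intro q0 hq0 F hF hF0 Ω hΩ hfr hcl O hO
    obtain ⟨v, hv, hv0⟩ := wing_direction hF hF0
    obtain ⟨L, hL⟩ := wing_coords n hv
    set E : (ℝ × ((Fin n → ℝ) × T)) ≃L[ℝ] (Fin (n + 1) → ℝ) × T :=
      (ContinuousLinearEquiv.prodAssoc ℝ ℝ (Fin n → ℝ) T).symm.trans
        (L.prodCongr (ContinuousLinearEquiv.refl ℝ T)) with hE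
    have hEa : ∀ (x : ℝ) (w : Fin n → ℝ) (t : T), E (x, (w, t)) = (L (x, w), t) :=
      fun x w t => rfl
    have hE0 : ∀ t : T, E (0, (0, t)) = (0, t) := by
      intro t
      rw [hEa, ← Prod.zero_eq_mk, map_zero]
    have hEt : ∀ t : T, Tendsto E (𝓝 (0, (0, t))) (𝓝 (0, t)) := by
      intro t
      have := E.continuous.continuousAt (x := ((0 : ℝ), ((0 : Fin n → ℝ), t)))
      rw [ContinuousAt, hE0] at this
      exact this
    obtain ⟨q, hq, σ1, σ2, h1, h2, h3, h4⟩ := hA.wing_step ih hq0 (F := fun p => F (E p))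
      (by
        refine AnalyticAt.comp (g := F) (f := E) (x := ((0 : ℝ), ((0 : Fin n → ℝ), q0))) ?_
          (E.analyticAt _)
        rw [hE0]
        exact hF)
      (by
        intro hcon
        refine hv0 ?_
        filter_upwards [hcon] with p hp
        rw [hEa, hL] at hp
        exact hp)
      (Ω := E ⁻¹' Ω) (hΩ.preimage E.continuous)
      (by
        have h5 : frontier (E ⁻¹' Ω) = E ⁻¹' frontier Ω :=
          (E.toHomeomorph.preimage_frontier Ω).symm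
        rw [h5]
        exact (hEt q0).eventually hfr)
      (by
        have h5 : closure (E ⁻¹' Ω) = E ⁻¹' closure Ω :=
          (E.toHomeomorph.preimage_closure Ω).symm
        rw [h5]
        filter_upwards [hcl] with t ht htA
        rw [mem_preimage, hE0]
        exact ht htA) hO
    refine ⟨q, hq, fun p => L (σ1 p, σ2 p), ?_, ?_, ?_⟩
    · exact AnalyticAt.comp (g := L) (f := fun p => (σ1 p, σ2 p)) (x := ((0 : ℝ), q))
        (L.analyticAt _) (h1.prod h2)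
    · filter_upwards [h3] with t ht
      rw [ht.1, ht.2, ← Prod.zero_eq_mk, map_zero]
    · filter_upwards [h4] with p hp hp0
      exact hp hp0

end Vale.Agent.P218CS
end

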