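import Mathlib
import Vale.Agent.P218CS.W6

/-! Weierstrass division for real-analytic functions, with an analytic quotient. -/

open Filter Topology Polynomial

namespace Vale.Agent.P218CS

namespace WP

/-- the power series of the evaluation functionals -/
noncomputable def evSer : FormalMultilinearSeries ℝ ℝ (A →L[ℝ] ℝ) :=
  fun n => ContinuousMultilinearMap.mkPiRing ℝ (Fin n) (cf n)

theorem norm_cf_le (n : ℕ) : ‖cf n‖ ≤ 1 := LinearMap.mkContinuous_norm_le _ zero_le_one _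

theorem evSer_radius : (1 : ENNReal) ≤ evSer.radius := by
  have h := evSer.le_radius_of_bound (r := 1) 1 fun n => by
    simp only [evSer, ContinuousMultilinearMap.norm_mkPiRing, NNReal.coe_one, one_pow, mul_one]
    exact norm_cf_le n
  simpa using h

theorem analyticAt_evSum : AnalyticAt ℝ evSer.sum 0 :=
  (evSer.hasFPowerSeriesOnBall (lt_of_lt_of_le one_pos evSer_radius)).analyticAt

theorem evSum_apply {ξ : ℝ} (hξ : |ξ| ≤ 1 / 2) (f : A) : evSer.sum ξ f = ev ξ f := by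
  have hb : ξ ∈ Metric.eball (0 : ℝ) evSer.radius := by
    refine lt_of_lt_of_le ?_ evSer_radius
    rw [edist_zero_right, ← ofReal_norm, Real.norm_eq_abs, ← ENNReal.ofReal_one]
    exact (ENNReal.ofReal_lt_ofReal_iff one_pos).2 (by linarith)
  have h1 := evSer.hasSum hb
  have h2 := h1.mapL (ContinuousLinearMap.apply ℝ ℝ f)
  have h3 : (fun n => (ContinuousLinearMap.apply ℝ ℝ f) (evSer n fun _ => ξ)) =
      fun n => f n * ξ ^ n := by
    funext n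
    simp only [evSer, ContinuousMultilinearMap.mkPiRing_apply, Finset.prod_const,
      Finset.card_univ, Fintype.card_fin, ContinuousLinearMap.apply_apply,
      smul_apply, smul_eq_mul]
    rw [mul_comm]
    rfl
  rw [h3] at h2
  exact h2.unique (summable_ev f hξ).hasSum

theorem ev_eq_sum {b : ℕ} {w : A} (hw : ∀ n, w (n + b) = 0) (ξ : ℝ) :
    ev ξ w = ∑ i : Fin b, w i * ξ ^ (i : ℕ) := by
  unfold ev
  rw [tsum_eq_sum (s := Finset.range b), Finset.sum_range (fun n => w n * ξ ^ n)]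
  intro n hn
  rw [Finset.mem_range, not_lt] at hn
  obtain ⟨m, rfl⟩ := Nat.exists_eq_add_of_le hn
  rw [add_comm, hw m, zero_mul]

end WP

variable {Y : Type} [NormedAddCommGroup Y] [NormedSpace ℝ Y]

open WP in
/-- Weierstrass division theorem for real-analytic functions. -/
theorem wdiv {F : ℝ × Y → ℝ} {p0 : Y} (hF : AnalyticAt ℝ F (0, p0)) {b : ℕ} {u : ℝ → ℝ}
    (hu : AnalyticAt ℝ u 0) (hu0 : u 0 ≠ 0) (hFu : ∀ᶠ x in 𝓝 (0 : ℝ), F (x, p0) = x ^ b * u x)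
    {H : ℝ × Y → ℝ} (hH : AnalyticAt ℝ H (0, p0)) :
    ∃ q : ℝ × Y → ℝ, ∃ r : Fin b → Y → ℝ, AnalyticAt ℝ q (0, p0) ∧
      (∀ i, AnalyticAt ℝ (r i) p0) ∧
      ∀ᶠ p in 𝓝 ((0 : ℝ), p0), H p = q p * F p + ∑ i, r i p.2 * p.1 ^ (i : ℕ) := by
  have hU : AnalyticAt ℝ (fun z : ℝ × Y => u z.1) (0, p0) :=
    AnalyticAt.comp_of_eq hu analyticAt_fst rfl
  have hV : AnalyticAt ℝ (fun z : ℝ × Y => (u z.1)⁻¹) (0, p0) := hU.inv hu0
  obtain ⟨ρ1, hρ1, H1⟩ := exists_G hF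
  obtain ⟨ρ2, hρ2, H2⟩ := exists_G hU
  obtain ⟨ρ3, hρ3, H3⟩ := exists_G hV
  obtain ⟨ρ4, hρ4, H4⟩ := exists_G hH
  have hune : ∀ᶠ x in 𝓝 (0 : ℝ), u x ≠ 0 := hu.continuousAt.eventually_ne hu0
  obtain ⟨δ, hδ, hδ'⟩ := Metric.eventually_nhds_iff.1 (hFu.and hune)
  obtain ⟨ρ, hρpos, hρle1, hρle2, hρle3, hρle4, hρδ⟩ : ∃ ρ : NNReal, 0 < ρ ∧ ρ ≤ ρ1 ∧ ρ ≤ ρ2 ∧
      ρ ≤ ρ3 ∧ ρ ≤ ρ4 ∧ (ρ : ℝ) ≤ δ := by
    refine ⟨min ρ4 (min (min ρ1 ρ2) (min ρ3 ⟨δ, hδ.le⟩)), ?_, ?_, ?_, ?_, ?_, ?_⟩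
    · exact lt_min hρ4 (lt_min (lt_min hρ1 hρ2) (lt_min hρ3 hδ))
    · exact (min_le_right _ _).trans ((min_le_left _ _).trans (min_le_left _ _))
    · exact (min_le_right _ _).trans ((min_le_left _ _).trans (min_le_right _ _))
    · exact (min_le_right _ _).trans ((min_le_right _ _).trans (min_le_left _ _))
    · exact min_le_left _ _
    · exact (NNReal.coe_le_coe.2 ((min_le_right _ _).trans
        ((min_le_right _ _).trans (min_le_right _ _))))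
  have hρ0 : (0 : ℝ) < ρ := hρpos
  obtain ⟨G, hGa, hG⟩ := H1 ρ hρle1
  obtain ⟨GU, -, hGU⟩ := H2 ρ hρle2
  obtain ⟨GV, -, hGV⟩ := H3 ρ hρle3
  obtain ⟨GH, hGHa, hGH⟩ := H4 ρ hρle4
  have hG0 := hG.self_of_nhds
  have hU0 := hGU.self_of_nhds
  have hV0 := hGV.self_of_nhds
  obtain ⟨U, hUdef⟩ : ∃ U, U = GU p0 := ⟨_, rfl⟩
  obtain ⟨V, hVdef⟩ : ∃ V, V = GV p0 := ⟨_, rfl⟩
  rw [← hUdef] at hU0
  rw [← hVdef] at hV0
  have hsmall : ∀ ξ : ℝ, |ξ| ≤ 1 / 2 →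
      F (ρ * ξ, p0) = (ρ * ξ) ^ b * u (ρ * ξ) ∧ u (ρ * ξ) ≠ 0 := by
    intro ξ hξ
    refine hδ' ?_
    rw [dist_zero_right, Real.norm_eq_abs, abs_mul, abs_of_pos hρ0]
    nlinarith only [hδ, hρδ, hξ, abs_nonneg ξ]
  have hUV : U * V = 1 := by
    refine op_ext fun ξ _ hξ f => ?_
    show ev ξ (U (V f)) = ev ξ f
    rw [hU0 ξ hξ, hV0 ξ hξ, ← mul_assoc, mul_inv_cancel₀ (hsmall ξ hξ).2, one_mul]
  have hVU : V * U = 1 := by
    refine op_ext fun ξ _ hξ f => ?_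
    show ev ξ (V (U f)) = ev ξ f
    rw [hV0 ξ hξ, hU0 ξ hξ, ← mul_assoc, inv_mul_cancel₀ (hsmall ξ hξ).2, one_mul]
  have hGp : G p0 = (ρ : ℝ) ^ b • (S ^ b * U) := by
    refine op_ext fun ξ _ hξ f => ?_
    have h1 : ((ρ : ℝ) ^ b • (S ^ b * U)) f = (ρ : ℝ) ^ b • (S ^ b) (U f) := rfl
    rw [hG0 ξ hξ, h1, ev_smul, ev_S_pow hξ, hU0 ξ hξ, (hsmall ξ hξ).1]
    ring
  obtain ⟨K, hK⟩ : ∃ K : Y → (A →L[ℝ] A), K = fun y => T ^ b * G y := ⟨_, rfl⟩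
  have hKa : AnalyticAt ℝ K p0 := by
    rw [hK]
    exact analyticAt_const.mul hGa
  have hKp : K p0 = (ρ : ℝ) ^ b • U := by
    rw [hK]
    simp only
    rw [hGp, mul_smul_comm, ← mul_assoc, T_pow_mul_S_pow, one_mul]
  have hρb : (ρ : ℝ) ^ b ≠ 0 := pow_ne_zero _ hρ0.ne'
  let κ : (A →L[ℝ] A)ˣ := ⟨K p0, ((ρ : ℝ) ^ b)⁻¹ • V, by
    rw [hKp, smul_mul_smul_comm, hUV, mul_inv_cancel₀ hρb, one_smul], by
    rw [hKp, smul_mul_smul_comm, hVU, inv_mul_cancel₀ hρb, one_smul]⟩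
  have hinv : AnalyticAt ℝ (fun y => Ring.inverse (K y)) p0 :=
    AnalyticAt.comp_of_eq (analyticAt_inverse κ) hKa rfl
  obtain ⟨q, hq⟩ : ∃ q : Y → A, q = fun y => (Ring.inverse (K y) * (T ^ b * GH y)) e0 :=
    ⟨_, rfl⟩
  obtain ⟨w, hw⟩ : ∃ w : Y → A, w = fun y => GH y e0 - G y (q y) := ⟨_, rfl⟩
  have happ : ∀ {M : Y → (A →L[ℝ] A)}, AnalyticAt ℝ M p0 → AnalyticAt ℝ (fun y => M y e0) p0 :=
    fun {M} hM => AnalyticAt.comp_of_eq ((ContinuousLinearMap.apply ℝ A e0).analyticAt (M p0))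
      hM rfl
  have hqa : AnalyticAt ℝ q p0 := by
    rw [hq]
    exact happ (hinv.mul (analyticAt_const.mul hGHa))
  have hwa : AnalyticAt ℝ w p0 := by
    have h1 : AnalyticAt ℝ (fun y => (G y * (Ring.inverse (K y) * (T ^ b * GH y))) e0) p0 :=
      happ (hGa.mul (hinv.mul (analyticAt_const.mul hGHa)))
    rw [hw, hq]
    exact (happ hGHa).sub h1
  have hunit : ∀ᶠ y in 𝓝 p0, IsUnit (K y) :=
    hKa.continuousAt.eventually (Units.isOpen.mem_nhds ⟨κ, rfl⟩)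
  have hwb : ∀ y, IsUnit (K y) → ∀ n, w y (n + b) = 0 := by
    intro y hy n
    rw [← T_pow_apply]
    have h1 : (T ^ b) (w y) =
        (T ^ b * GH y) e0 - (K y * Ring.inverse (K y) * (T ^ b * GH y)) e0 := by
      rw [hw, hq, hK]
      simp only [map_sub]
      rfl
    rw [h1, Ring.mul_inverse_cancel _ hy, one_mul, sub_self]
    rfl
  have hsc : AnalyticAt ℝ (fun p : ℝ × Y => evSer.sum (p.1 / ρ)) (0, p0) := by
    have h1 : AnalyticAt ℝ (fun p : ℝ × Y => p.1 / (ρ : ℝ)) (0, p0) :=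
      analyticAt_fst.div_const
    exact AnalyticAt.comp_of_eq analyticAt_evSum h1 (by simp)
  have hq2 : AnalyticAt ℝ (fun p : ℝ × Y => q p.2) (0, p0) :=
    AnalyticAt.comp_of_eq hqa analyticAt_snd rfl
  refine ⟨fun p => evSer.sum (p.1 / ρ) (q p.2), fun i y => w y i / (ρ : ℝ) ^ (i : ℕ), ?_, ?_, ?_⟩
  · exact ((ContinuousLinearMap.id ℝ (A →L[ℝ] ℝ)).analyticAt_bilinear _).comp₂ hsc hq2
  · intro i
    have h1 : AnalyticAt ℝ (fun y => cf i (w y)) p0 :=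
      AnalyticAt.comp_of_eq ((cf i).analyticAt (w p0)) hwa rfl
    exact h1.div_const
  · have hx : ∀ᶠ p : ℝ × Y in 𝓝 ((0 : ℝ), p0), |p.1| < (ρ : ℝ) / 2 := by
      have h1 : ContinuousAt (fun p : ℝ × Y => |p.1|) (0, p0) := continuous_fst.abs.continuousAt
      exact h1.eventually_lt continuousAt_const (by simpa using hρ0)
    have hs : Tendsto (fun p : ℝ × Y => p.2) (𝓝 ((0 : ℝ), p0)) (𝓝 p0) := continuousAt_snd
    filter_upwards [hx, hs.eventually hunit, hs.eventually hG, hs.eventually hGH]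
      with p hp hy1 hy2 hy3
    obtain ⟨x, y⟩ := p
    obtain ⟨ξ, hξdef⟩ : ∃ ξ : ℝ, ξ = x / ρ := ⟨_, rfl⟩
    have hxξ : x = ρ * ξ := by
      rw [hξdef]
      field_simp
    have hξ : |ξ| ≤ 1 / 2 := by
      rw [hξdef, abs_div, abs_of_pos hρ0, div_le_iff₀ hρ0]
      simp only at hp
      linarith only [hp]
    have h1 : ev ξ (w y) = H (x, y) - F (x, y) * ev ξ (q y) := by
      have h2 := (evL hξ).map_sub (GH y e0) (G y (q y))
      rw [evL_apply, evL_apply, evL_apply, hy2 ξ hξ, hy3 ξ hξ, ev_e0, mul_one, ← hxξ] at h2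
      rw [hw]
      exact h2
    have h3 := ev_eq_sum (hwb y hy1) ξ
    simp only
    rw [← hξdef, evSum_apply hξ]
    have h4 : ∑ i : Fin b, w y i / (ρ : ℝ) ^ (i : ℕ) * x ^ (i : ℕ) =
        ∑ i : Fin b, w y i * ξ ^ (i : ℕ) := by
      refine Finset.sum_congr rfl fun i _ => ?_
      rw [hξdef, div_pow]
      ring
    rw [h4, ← h3, h1]
    ring

end Vale.Agent.P218CS
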